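import Vale.Agent.P219.GenK.Four.Check
import Vale.Agent.P219.Relax.Poly.FastCheck

/-!
# P219: the sign on a box by the packed check

The polynomial at the affine image of the unit square is one expression, checked as one number.
-/

noncomputable section

open Vale.Agent.P219.Poly (E)

namespace Vale.Agent.P219.CH.GenK.Four.Check

/-- A polynomial in one variable at `z`, as an expression. -/
def horner1 (z : E) : List ℤ → E
  | [] => .k 0
  | c :: l => .add (.k c) (.mul z (horner1 z l))

/-- A polynomial in two variables at `(t, z)`, as an expression. -/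
def horner2 (t z : E) : List (List ℤ) → E
  | [] => .k 0
  | r :: l => .add (horner1 z r) (.mul t (horner2 t z l))

/-- The point of `[a, b]` at the parameter with index `i`. -/
def affE (i : Fin 3) (a b : ℤ) : E := .add (.k a) (.mul (.k (b - a)) (.x i))

/-- The polynomial on the box, as an expression on the unit square. -/
def boxE (p : List (List ℤ)) (a b c d : ℤ) : E := horner2 (affE 0 a b) (affE 1 c d) p

/-- Every barycentric coefficient on the box is nonnegative, by one number. -/
def boxPos2 (p : List (List ℤ)) (a b c d : ℤ) : Bool :=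
  decide (a < b) && decide (c < d) && E.check2 (boxE p a b c d)

lemma sem_horner1 (v : Fin 3 → ℝ) (z : E) : ∀ l, E.sem v (horner1 z l) = ev1 (E.sem v z) l
  | [] => by simp [horner1, E.sem, ev1, evP]
  | c :: l => by simp [horner1, E.sem, ev1, evP, sem_horner1 v z l]

lemma sem_horner2 (v : Fin 3 → ℝ) (t z : E) :
    ∀ p, E.sem v (horner2 t z p) = ev2 p (E.sem v t) (E.sem v z)
  | [] => by simp [horner2, E.sem, ev2, evP]
  | r :: l => by simp [horner2, E.sem, ev2, evP, sem_horner2 v t z l, sem_horner1]

/-- A checked box, with the packed check. -/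
theorem ev2_nonneg2 {p : List (List ℤ)} {a b c d : ℤ} (h : boxPos2 p a b c d = true) {t x : ℝ}
    (ht1 : (a : ℝ) ≤ t) (ht2 : t ≤ b) (hx1 : (c : ℝ) ≤ x) (hx2 : x ≤ d) : 0 ≤ ev2 p t x := by
  simp only [boxPos2, Bool.and_eq_true, decide_eq_true_eq] at h
  obtain ⟨⟨hab, hcd⟩, hE⟩ := h
  have hab' : (a : ℝ) < b := by exact_mod_cast hab
  have hcd' : (c : ℝ) < d := by exact_mod_cast hcd
  have key := E.sem_nonneg2 hE (v := ![(t - a) / (b - a), (x - c) / (d - c), 0]) fun i => by
    fin_cases i <;> simp [div_le_one, div_nonneg, hab', hcd', ht1, ht2, hx1, hx2, hab'.le, hcd'.le]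
  have et : (a : ℝ) + (b - a) * ((t - a) / (b - a)) = t := by
    rw [mul_div_cancel₀ _ (sub_pos.2 hab').ne']
    ring
  have ex : (c : ℝ) + (d - c) * ((x - c) / (d - c)) = x := by
    rw [mul_div_cancel₀ _ (sub_pos.2 hcd').ne']
    ring
  simp only [boxE, sem_horner2, affE, E.sem, Matrix.cons_val_zero, Matrix.cons_val_one,
    Int.cast_sub, et, ex] at key
  exact key

end Vale.Agent.P219.CH.GenK.Four.Check
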