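import Vale.Agent.P219.GenK.Four.Check

/-!
# P219, dimension four: the region of the pointwise inequality in rectangular coordinates

With `e = u ^ 2` and `X = u x` the region `e ≤ 16 / 25`, `e x ^ 2 ≤ 1` becomes a rectangle.
-/

noncomputable section

namespace Vale.Agent.P219.CH.GenK.Four

/-- A function of `(e, x)` that is a checked polynomial in `(5 u, 4 X)` up to a power of `u`. -/
theorem nonneg_of_rect {p : ℝ → ℝ → ℝ} {L : List (List ℤ)} {K : ℝ} {k : ℕ} (hK : 0 < K)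
    (eq : ∀ u x : ℝ, Check.ev2 L (5 * u) (4 * (u * x)) = K * (u ^ k * p (u ^ 2) x))
    (h : ∀ t z : ℝ, 0 ≤ t → t ≤ 4 → 0 ≤ z → z ≤ 4 → 0 ≤ Check.ev2 L t z)
    {e x : ℝ} (he : 0 < e) (he1 : e ≤ 16 / 25) (hx : 0 ≤ x) (hy : e * x ^ 2 ≤ 1) : 0 ≤ p e x := by
  obtain ⟨u, hu⟩ : ∃ u, u = Real.sqrt e := ⟨_, rfl⟩
  have hu0 : 0 < u := hu ▸ Real.sqrt_pos.2 he
  have hu2 : u ^ 2 = e := hu ▸ Real.sq_sqrt he.le
  have hu1 : u ≤ 4 / 5 := (pow_le_pow_iff_left₀ hu0.le (by norm_num) two_ne_zero).1 (by linarith)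
  have hX : u * x ≤ 1 :=
    (pow_le_one_iff_of_nonneg (mul_nonneg hu0.le hx) two_ne_zero).1 (by rw [mul_pow, hu2]; exact hy)
  have h0 := h (5 * u) (4 * (u * x)) (by linarith) (by linarith)
    (by linarith [mul_nonneg hu0.le hx]) (by linarith)
  rw [eq, hu2] at h0
  exact nonneg_of_mul_nonneg_right (nonneg_of_mul_nonneg_right h0 hK) (pow_pos hu0 k)

/-- A checked polynomial in `(25 e, 4 x)` on a strip in `x`. -/
theorem nonneg_of_strip {p : ℝ → ℝ → ℝ} {L : List (List ℤ)} {K : ℝ} {a b : ℕ} (hK : 0 < K)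
    (eq : ∀ e x : ℝ, Check.ev2 L (25 * e) (4 * x) = K * p e x)
    (h : ∀ t z : ℝ, 0 ≤ t → t ≤ 16 → (a : ℝ) ≤ z → z ≤ b → 0 ≤ Check.ev2 L t z)
    {e x : ℝ} (he : 0 ≤ e) (he1 : e ≤ 16 / 25) (hx : (a : ℝ) ≤ 4 * x) (hx1 : 4 * x ≤ b) :
    0 ≤ p e x := by
  have h0 := h (25 * e) (4 * x) (by linarith) (by linarith) hx hx1
  rw [eq] at h0
  exact nonneg_of_mul_nonneg_right h0 hK

end Vale.Agent.P219.CH.GenK.Four
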