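import Vale.Agent.P219.GenK.Four.Edge
import Vale.Agent.P219.GenK.Four.Fast
import Vale.Agent.P219.GenK.Four.Sign

/-!
# P219, dimension four against curvature at most `-b ^ 2`: signs by checked boxes, part 3
-/

noncomputable section

namespace Vale.Agent.P219.CH.GenK.Four

/-- Integer coefficients. -/
def edgeRightList : List (List ℤ) :=
  [[0, 0, 0, 0, 0, 240000000000, 0, 190000000000, 0, -18750000000, 0, 468750000],
    [262144000000000, 0, -57344000000000, 0, 9664000000000, 0, -936000000000, 0, 43500000000, 0, -750000000],
    [0, 39321600000000, 0, -15385600000000, 0, 1892000000000, 0, -109900000000, 0, 2926562500, 0, -26953125],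
    [-11796480000000, 0, -5130240000000, 0, 956160000000, 0, -38280000000, 0, -618750000, 0, 43125000],
    [0, -1949696000000, 0, 862976000000, 0, -111096000000, 0, 5737500000, 0, -102500000, 0, -93750],
    [-2116812800000, 0, 839475200000, 0, -109766400000, 0, 5924400000, 0, -117000000, 0, 150000],
    [0, 13434880000, 0, 135680000, 0, -171200000, 0, 13690000, 0, -365000],
    [121503744000, 0, -21196800000, 0, 1127936000, 0, -11216000, 0, -384000],
    [0, -268697600, 0, 32563200, 0, -1305600, 0, 20000],
    [419430400, 0, -77660160, 0, 4915200, 0, -106240],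
    [0, -4718592, 0, 294912]]

theorem edgeRightBox0_checked : Check.boxPos2 edgeRightList 0 2 0 4 = true := by decide +kernel

theorem edgeRightBox1_checked : Check.boxPos2 edgeRightList 2 3 0 2 = true := by decide +kernel

theorem edgeRightBox2_checked : Check.boxPos2 edgeRightList 2 3 2 4 = true := by decide +kernel

theorem edgeRightBox3_checked : Check.boxPos2 edgeRightList 3 4 0 2 = true := by decide +kernel

theorem edgeRightBox4_checked : Check.boxPos2 edgeRightList 3 4 2 3 = true := by decide +kernel

theorem edgeRightBox5_checked : Check.boxPos2 edgeRightList 3 4 3 4 = true := by decide +kernel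

theorem edgeRight_nonneg {e x : ℝ} (he : 0 < e) (he1 : e ≤ 16 / 25) (hx : 0 ≤ x)
    (hy : e * x ^ 2 ≤ 1) : 0 ≤ edgeRight e x := by
  refine nonneg_of_rect (p := fun e x => edgeRight e x) (L := edgeRightList) (K := (2560000000000)) (k := 1) (by norm_num)
    (fun u x => ?_) (fun t z ht ht1 hz hz1 => ?_) he he1 hx hy
  · simp only [edgeRightList, Check.ev2, Check.ev1, Check.evP, edgeRight]
    push_cast
    ring
  · rcases le_total t 2 with hc | hc
    · exact Check.ev2_nonneg2 edgeRightBox0_checked (by push_cast; linarith) (by push_cast; linarith) (by push_cast; linarith)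
        (by push_cast; linarith)
    · rcases le_total t 3 with hc | hc
      · rcases le_total z 2 with hc | hc
        · exact Check.ev2_nonneg2 edgeRightBox1_checked (by push_cast; linarith) (by push_cast; linarith) (by push_cast; linarith)
            (by push_cast; linarith)
        · exact Check.ev2_nonneg2 edgeRightBox2_checked (by push_cast; linarith) (by push_cast; linarith) (by push_cast; linarith)
            (by push_cast; linarith)
      · rcases le_total z 2 with hc | hc
        · exact Check.ev2_nonneg2 edgeRightBox3_checked (by push_cast; linarith) (by push_cast; linarith) (by push_cast; linarith)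
            (by push_cast; linarith)
        · rcases le_total z 3 with hc | hc
          · exact Check.ev2_nonneg2 edgeRightBox4_checked (by push_cast; linarith) (by push_cast; linarith) (by push_cast; linarith)
              (by push_cast; linarith)
          · exact Check.ev2_nonneg2 edgeRightBox5_checked (by push_cast; linarith) (by push_cast; linarith) (by push_cast; linarith)
              (by push_cast; linarith)

/-- Integer coefficients. -/
def edgeHalfList : List (List ℤ) :=
  [[1228800000000000000, -614400000000000000, 0, 25600000000000000],
    [-55296000000000000, 37888000000000000, -10752000000000000, 2944000000000000, -576000000000000],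
    [-3041280000000000, 222720000000000, 492160000000000, -355840000000000, 112240000000000, 15000000000000, -4740000000000, -1280000000000],
    [173875200000000, -38041600000000, 22182400000000, 3724800000000, -4280000000000, -229200000000, -79200000000, -77800000000, 35100000000, 9600000000],
    [589824000000, -211968000000, -1297664000000, 341056000000, -78416000000, -34516000000, 21126000000, 7606000000, -1297500000, -192000000, -78750000, -24000000],
    [0, -1228800000, -4239360000, 1561600000, 3221760000, -942880000, 124680000, 108900000, -48610000, -21718750, 4008125, 1097500, 60000, 20000],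
    [0, 0, 0, 3072000, 11059200, -3808000, -2635200, 1020800, -139600, -137575, 45650, 21100, -3450, -1150],
    [0, 0, 0, 0, 0, 0, -10368, 3072, -64, -310, 104, 64, -12, -4]]

theorem edgeHalfBox0_checked : Check.boxPos2 edgeHalfList 0 8 0 4 = true := by decide +kernel

theorem edgeHalfBox1_checked : Check.boxPos2 edgeHalfList 8 16 0 2 = true := by decide +kernel

theorem edgeHalfBox2_checked : Check.boxPos2 edgeHalfList 8 16 2 4 = true := by decide +kernel

theorem edgeHalf_nonneg {e x : ℝ} (he : 0 ≤ e) (he1 : e ≤ 16 / 25) (hx : 0 ≤ 4 * x)
    (hx1 : 4 * x ≤ 4) : 0 ≤ edgeHalf e x := by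
  refine nonneg_of_strip (p := fun e x => edgeHalf e x) (L := edgeHalfList) (K := (3200000000000000)) (a := 0) (b := 4)
    (by norm_num) (fun e x => ?_) (fun t z ht ht1 hz hz1 => ?_) he he1 (by push_cast; linarith)
    (by push_cast; linarith)
  · simp only [edgeHalfList, Check.ev2, Check.ev1, Check.evP, curv, dP, dQ, den, edgeHalf, edgeLeft, edgeLin, edgeRight, endDiag, g0, g1, g2, g3, piS, q0c, q1c, q2c, res, symS, wP, wQ]
    push_cast
    ring
  · push_cast at hz hz1
    rcases le_total t 8 with hc | hc
    · exact Check.ev2_nonneg2 edgeHalfBox0_checked (by push_cast; linarith) (by push_cast; linarith) (by push_cast; linarith)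
        (by push_cast; linarith)
    · rcases le_total z 2 with hc | hc
      · exact Check.ev2_nonneg2 edgeHalfBox1_checked (by push_cast; linarith) (by push_cast; linarith) (by push_cast; linarith)
          (by push_cast; linarith)
      · exact Check.ev2_nonneg2 edgeHalfBox2_checked (by push_cast; linarith) (by push_cast; linarith) (by push_cast; linarith)
          (by push_cast; linarith)

/-- Integer coefficients. -/
def edgeB1List : List (List ℤ) :=
  [[5324800000000000000, -2457600000000000000, 0, 76800000000000000],
    [-239616000000000000, 155648000000000000, -46592000000000000, 12928000000000000, -1920000000000000],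
    [-14161920000000000, 803840000000000, 1893760000000000, -1457600000000000, 473920000000000, 56760000000000, -14520000000000, -3840000000000],
    [809984000000000, -157593600000000, 117235200000000, 16176000000000, -17779200000000, -633200000000, -823200000000, -373000000000, 107400000000, 28800000000],
    [2752512000000, -919552000000, -5999360000000, 1400480000000, -455472000000, -141004000000, 93240000000, 29542000000, -2739000000, -222000000, -238500000, -72000000],
    [0, -5406720000, -19845120000, 6632960000, 14662400000, -3852640000, 831640000, 424990000, -215965000, -84743750, 11193750, 3002500, 180000, 60000],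
    [0, 0, 0, 13516800, 51609600, -15910400, -11406400, 4088200, -880000, -528500, 192600, 79975, -10350, -3450],
    [0, 0, 0, 0, 0, 0, -48000, 12688, -1024, -1196, 504, 250, -36, -12]]

theorem edgeB1Box0_checked : Check.boxPos2 edgeB1List 0 16 0 3 = true := by decide +kernel

theorem edgeB1_nonneg {e x : ℝ} (he : 0 ≤ e) (he1 : e ≤ 16 / 25) (hx : 0 ≤ 4 * x)
    (hx1 : 4 * x ≤ 3) : 0 ≤ edgeHalf e x + edgeSlope e x / 6 := by
  refine nonneg_of_strip (p := fun e x => edgeHalf e x + edgeSlope e x / 6) (L := edgeB1List) (K := (9600000000000000)) (a := 0) (b := 3)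
    (by norm_num) (fun e x => ?_) (fun t z ht ht1 hz hz1 => ?_) he he1 (by push_cast; linarith)
    (by push_cast; linarith)
  · simp only [edgeB1List, Check.ev2, Check.ev1, Check.evP, curv, dP, dQ, den, edgeHalf, edgeLeft, edgeLin, edgeRight, edgeSlope, endDiag, g0, g1, g2, g3, piS, q0c, q1c, q2c, res, symS, wP, wQ]
    push_cast
    ring
  · push_cast at hz hz1
    exact Check.ev2_nonneg2 edgeB1Box0_checked (by push_cast; linarith) (by push_cast; linarith) (by push_cast; linarith)
      (by push_cast; linarith)

/-- Integer coefficients. -/
def qLeadList : List (List ℤ) :=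
  [[],
    [0, 1638400000000, 0, -121600000000, 0, 6400000000, 0, -800000000, 0, 31250000],
    [],
    [0, -73728000000, 0, 4928000000, 0, -288000000, 0, 44875000, 0, -1796875],
    [],
    [0, 204800000, 0, -41600000, 0, -480000, 0, 227500, 0, -6250],
    [],
    [0, -2457600, 0, -358400, 0, 22400, 0, 600],
    [],
    [0, -196608, 0, 12288]]

theorem qLeadBox0_checked : Check.boxPos2 qLeadList 0 4 0 4 = true := by decide +kernel

theorem qLead_nonneg {e x : ℝ} (he : 0 < e) (he1 : e ≤ 16 / 25) (hx : 0 ≤ x)
    (hy : e * x ^ 2 ≤ 1) : 0 ≤ -qLead e x := by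
  refine nonneg_of_rect (p := fun e x => -qLead e x) (L := qLeadList) (K := (32000000000)) (k := 0) (by norm_num)
    (fun u x => ?_) (fun t z ht ht1 hz hz1 => ?_) he he1 hx hy
  · simp only [qLeadList, Check.ev2, Check.ev1, Check.evP, dQ, g0, g1, g2, g3, qLead, res, wQ]
    push_cast
    ring
  · exact Check.ev2_nonneg2 qLeadBox0_checked (by push_cast; linarith) (by push_cast; linarith) (by push_cast; linarith)
      (by push_cast; linarith)

/-- Integer coefficients. -/
def symB00List : List (List ℤ) :=
  [[3276800000000],
    [0, -245760000000, 0, -9600000000, 0, 1680000000, 0, -45000000],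
    [-147456000000, 0, 16896000000, 0, -3296000000, 0, 192000000, 0, -3750000],
    [0, 12595200000, 0, 614400000, 0, -94800000, 0, 2587500],
    [-245760000, 0, -1029120000, 0, 187200000, 0, -10950000, 0, 215625],
    [0, 18432000, 0, 1728000, 0, -444000, 0, 9000],
    [11468800, 0, -2611200, 0, 857600, 0, -43800, 0, 750],
    [0, -3932160, 0, 76800, 0, -960],
    [0, 0, -36864, 0, 3072, 0, -48]]

theorem symB00Box0_checked : Check.boxPos2 symB00List 0 4 0 4 = true := by decide +kernel

theorem symB00_nonneg {e x : ℝ} (he : 0 < e) (he1 : e ≤ 16 / 25) (hx : 0 ≤ x)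
    (hy : e * x ^ 2 ≤ 1) : 0 ≤ symB e x 0 0 := by
  refine nonneg_of_rect (p := fun e x => symB e x 0 0) (L := symB00List) (K := (6400000000)) (k := 0) (by norm_num)
    (fun u x => ?_) (fun t z ht ht1 hz hz1 => ?_) he he1 hx hy
  · simp only [symB00List, Check.ev2, Check.ev1, Check.evP, dP, dQ, den, symB, wP, wQ]
    push_cast
    ring
  · exact Check.ev2_nonneg2 symB00Box0_checked (by push_cast; linarith) (by push_cast; linarith) (by push_cast; linarith)
      (by push_cast; linarith)

/-- Integer coefficients. -/
def curvList : List (List ℤ) :=
  [[],
    [0, 0, 0, 1250000],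
    [0, 0, 750000],
    [0, 93750, 0, -71875],
    [160000, 0, -43125],
    [0, -5250, 0, -250],
    [-9200, 0, -150],
    [],
    [-32]]

theorem curvBox0_checked : Check.boxPos2 curvList 0 4 0 4 = true := by decide +kernel

theorem curv_nonneg {e x : ℝ} (he : 0 < e) (he1 : e ≤ 16 / 25) (hx : 0 ≤ x)
    (hy : e * x ^ 2 ≤ 1) : 0 ≤ curv e x := by
  refine nonneg_of_rect (p := fun e x => curv e x) (L := curvList) (K := (390625 / 2)) (k := 0) (by norm_num)
    (fun u x => ?_) (fun t z ht ht1 hz hz1 => ?_) he he1 hx hy
  · simp only [curvList, Check.ev2, Check.ev1, Check.evP, curv, g2, g3, q1c, q2c]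
    push_cast
    ring
  · exact Check.ev2_nonneg2 curvBox0_checked (by push_cast; linarith) (by push_cast; linarith) (by push_cast; linarith)
      (by push_cast; linarith)

end Vale.Agent.P219.CH.GenK.Four
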