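import Vale.Agent.P219.GenK.Four.Edge
import Vale.Agent.P219.GenK.Four.Fast
import Vale.Agent.P219.GenK.Four.Sign

/-!
# P219, dimension four against curvature at most `-b ^ 2`: signs by checked boxes, part 4
-/

noncomputable section

namespace Vale.Agent.P219.CH.GenK.Four

/-- Integer coefficients. -/
def edgeLinList : List (List ℤ) :=
  [[0, 0, 0, 7680000000000, 0, 300000000000, 0, -52500000000, 0, 1406250000],
    [196608000000000, 0, -26624000000000, 0, -2160000000000, 0, 618000000000, 0, -39375000000, 0, 812500000],
    [0, 13107200000000, 0, -9148800000000, 0, 1267200000000, 0, -69037500000, 0, 1319140625],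
    [-8847360000000, 0, -1758720000000, 0, 707520000000, 0, -71670000000, 0, 3019687500, 0, -46718750],
    [0, -1343488000000, 0, 627648000000, 0, -82998000000, 0, 4364875000, 0, -80781250],
    [-853606400000, 0, 330598400000, 0, -41857600000, 0, 2139300000, 0, -35475000, 0, -162500],
    [0, 44236800000, 0, -6640640000, 0, 283040000, 0, 2410000, 0, -280000],
    [48922624000, 0, -8696832000, 0, 476800000, 0, -5564000, 0, -138000],
    [0, 32768000, 0, -12697600, 0, 1100800, 0, -27200],
    [167772160, 0, -32686080, 0, 2088960, 0, -43840],
    [0, -1572864, 0, 98304]]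

theorem edgeLinBox0_checked : Check.boxPos2 edgeLinList 0 2 0 2 = true := by decide +kernel

theorem edgeLinBox1_checked : Check.boxPos2 edgeLinList 0 2 2 4 = true := by decide +kernel

theorem edgeLinBox2_checked : Check.boxPos2 edgeLinList 2 4 0 2 = true := by decide +kernel

theorem edgeLinBox3_checked : Check.boxPos2 edgeLinList 2 3 2 3 = true := by decide +kernel

theorem edgeLinBox4_checked : Check.boxPos2 edgeLinList 3 4 2 3 = true := by decide +kernel

theorem edgeLinBox5_checked : Check.boxPos2 edgeLinList 2 4 3 4 = true := by decide +kernel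

theorem edgeLin_nonneg {e x : ℝ} (he : 0 < e) (he1 : e ≤ 16 / 25) (hx : 0 ≤ x)
    (hy : e * x ^ 2 ≤ 1) : 0 ≤ edgeLin e x := by
  refine nonneg_of_rect (p := fun e x => edgeLin e x) (L := edgeLinList) (K := (640000000000)) (k := 1) (by norm_num)
    (fun u x => ?_) (fun t z ht ht1 hz hz1 => ?_) he he1 hx hy
  · simp only [edgeLinList, Check.ev2, Check.ev1, Check.evP, edgeLin]
    push_cast
    ring
  · rcases le_total t 2 with hc | hc
    · rcases le_total z 2 with hc | hc
      · exact Check.ev2_nonneg2 edgeLinBox0_checked (by push_cast; linarith) (by push_cast; linarith) (by push_cast; linarith)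
          (by push_cast; linarith)
      · exact Check.ev2_nonneg2 edgeLinBox1_checked (by push_cast; linarith) (by push_cast; linarith) (by push_cast; linarith)
          (by push_cast; linarith)
    · rcases le_total z 2 with hc | hc
      · exact Check.ev2_nonneg2 edgeLinBox2_checked (by push_cast; linarith) (by push_cast; linarith) (by push_cast; linarith)
          (by push_cast; linarith)
      · rcases le_total z 3 with hc | hc
        · rcases le_total t 3 with hc | hc
          · exact Check.ev2_nonneg2 edgeLinBox3_checked (by push_cast; linarith) (by push_cast; linarith) (by push_cast; linarith)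
              (by push_cast; linarith)
          · exact Check.ev2_nonneg2 edgeLinBox4_checked (by push_cast; linarith) (by push_cast; linarith) (by push_cast; linarith)
              (by push_cast; linarith)
        · exact Check.ev2_nonneg2 edgeLinBox5_checked (by push_cast; linarith) (by push_cast; linarith) (by push_cast; linarith)
            (by push_cast; linarith)

/-- Integer coefficients. -/
def edgeA2List : List (List ℤ) :=
  [[2048000000000000000, -1228800000000000000, 0, 76800000000000000],
    [-92160000000000000, 71680000000000000, -17920000000000000, 4736000000000000, -1536000000000000],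
    [-4085760000000000, 532480000000000, 1059200000000000, -677440000000000, 199520000000000, 33240000000000, -13920000000000, -3840000000000],
    [233267200000000, -70656000000000, 15859200000000, 6172800000000, -7900800000000, -742000000000, 348000000000, -93800000000, 103200000000, 28800000000],
    [786432000000, -352256000000, -1786624000000, 645856000000, -15024000000, -66092000000, 33516000000, 16094000000, -5046000000, -930000000, -234000000, -72000000],
    [0, -1966080000, -5591040000, 2736640000, 4668160000, -1804640000, -83560000, 228410000, -75695000, -45568750, 12855000, 3582500, 180000, 60000],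
    [0, 0, 0, 4915200, 14745600, -6937600, -4404800, 2036600, 42400, -296950, 81300, 46625, -10350, -3450],
    [0, 0, 0, 0, 0, 0, -14208, 5744, 640, -664, 120, 134, -36, -12]]

theorem edgeA2Box0_checked : Check.boxPos2 edgeA2List 0 16 0 2 = true := by decide +kernel

theorem edgeA2Box1_checked : Check.boxPos2 edgeA2List 0 8 2 4 = true := by decide +kernel

theorem edgeA2Box2_checked : Check.boxPos2 edgeA2List 8 16 2 4 = true := by decide +kernel

theorem edgeA2_nonneg {e x : ℝ} (he : 0 ≤ e) (he1 : e ≤ 16 / 25) (hx : 0 ≤ 4 * x)
    (hx1 : 4 * x ≤ 4) : 0 ≤ edgeHalf e x - edgeSlope e x / 6 := by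
  refine nonneg_of_strip (p := fun e x => edgeHalf e x - edgeSlope e x / 6) (L := edgeA2List) (K := (9600000000000000)) (a := 0) (b := 4)
    (by norm_num) (fun e x => ?_) (fun t z ht ht1 hz hz1 => ?_) he he1 (by push_cast; linarith)
    (by push_cast; linarith)
  · simp only [edgeA2List, Check.ev2, Check.ev1, Check.evP, curv, dP, dQ, den, edgeHalf, edgeLeft, edgeLin, edgeRight, edgeSlope, endDiag, g0, g1, g2, g3, piS, q0c, q1c, q2c, res, symS, wP, wQ]
    push_cast
    ring
  · push_cast at hz hz1
    rcases le_total z 2 with hc | hc
    · exact Check.ev2_nonneg2 edgeA2Box0_checked (by push_cast; linarith) (by push_cast; linarith) (by push_cast; linarith)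
        (by push_cast; linarith)
    · rcases le_total t 8 with hc | hc
      · exact Check.ev2_nonneg2 edgeA2Box1_checked (by push_cast; linarith) (by push_cast; linarith) (by push_cast; linarith)
          (by push_cast; linarith)
      · exact Check.ev2_nonneg2 edgeA2Box2_checked (by push_cast; linarith) (by push_cast; linarith) (by push_cast; linarith)
          (by push_cast; linarith)

/-- Integer coefficients. -/
def atHalfList : List (List ℤ) :=
  [[3276800000000, 0, 0, 0, -102400000000, 0, 19200000000, 0, -1200000000, 0, 25000000],
    [0, -122880000000, 0, -66240000000, 0, 12360000000, 0, -742500000, 0, 15000000],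
    [-147456000000, 0, 9216000000, 0, 4032000000, 0, -1002000000, 0, 67125000, 0, -1437500],
    [0, -6809600000, 0, 6297600000, 0, -863400000, 0, 45893750, 0, -862500],
    [-245760000, 0, -599040000, 0, 127040000, 0, -9750000, 0, 350625, 0, -5000],
    [0, 762880000, 0, -128160000, 0, 6306000, 0, -35500, 0, -3000],
    [11468800, 0, -2611200, 0, 857600, 0, -43800, 0, 750],
    [0, 655360, 0, -453120, 0, 30240, 0, -640],
    [0, 0, -36864, 0, 3072, 0, -48]]

theorem atHalfBox0_checked : Check.boxPos2 atHalfList 0 2 0 4 = true := by decide +kernel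

theorem atHalfBox1_checked : Check.boxPos2 atHalfList 2 4 0 4 = true := by decide +kernel

theorem atHalf_nonneg {e x : ℝ} (he : 0 < e) (he1 : e ≤ 16 / 25) (hx : 0 ≤ x)
    (hy : e * x ^ 2 ≤ 1) : 0 ≤ atHalf e x := by
  refine nonneg_of_rect (p := fun e x => atHalf e x) (L := atHalfList) (K := (6400000000)) (k := 0) (by norm_num)
    (fun u x => ?_) (fun t z ht ht1 hz hz1 => ?_) he he1 hx hy
  · simp only [atHalfList, Check.ev2, Check.ev1, Check.evP, atHalf, curv, dP, dQ, den, g2, g3, q1c, q2c, symS, wP, wQ]
    push_cast
    ring
  · rcases le_total t 2 with hc | hc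
    · exact Check.ev2_nonneg2 atHalfBox0_checked (by push_cast; linarith) (by push_cast; linarith) (by push_cast; linarith)
        (by push_cast; linarith)
    · exact Check.ev2_nonneg2 atHalfBox1_checked (by push_cast; linarith) (by push_cast; linarith) (by push_cast; linarith)
        (by push_cast; linarith)

/-- Integer coefficients. -/
def symB10List : List (List ℤ) :=
  [[81920000000000],
    [0, -9216000000000, 0, -360000000000, 0, 63000000000, 0, -1687500000],
    [-3686400000000, 0, 460800000000, 0, -52000000000, 0, 1800000000, 0, -18750000],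
    [0, 672000000000, 0, 1920000000, 0, -2955000000, 0, 97031250],
    [-272384000000, 0, 15872000000, 0, 408000000, 0, -53500000, 0, 1078125],
    [0, -9600000000, 0, 1236000000, 0, -51150000, 0, 337500],
    [14008320000, 0, -2419200000, 0, 155440000, 0, -3235000, 0, 3750],
    [0, -235008000, 0, 9696000, 0, -156000],
    [116736000, 0, -12953600, 0, 628800, 0, -10000],
    [0, -368640, 0, 23040],
    [491520, 0, -49152, 0, 1152]]

theorem symB10Box0_checked : Check.boxPos2 symB10List 0 4 0 4 = true := by decide +kernel

theorem symB10_nonneg {e x : ℝ} (he : 0 < e) (he1 : e ≤ 16 / 25) (hx : 0 ≤ x)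
    (hy : e * x ^ 2 ≤ 1) : 0 ≤ symB e x 1 0 := by
  refine nonneg_of_rect (p := fun e x => symB e x 1 0) (L := symB10List) (K := (160000000000)) (k := 0) (by norm_num)
    (fun u x => ?_) (fun t z ht ht1 hz hz1 => ?_) he he1 hx hy
  · simp only [symB10List, Check.ev2, Check.ev1, Check.evP, dP, dQ, den, symB, wP, wQ]
    push_cast
    ring
  · exact Check.ev2_nonneg2 symB10Box0_checked (by push_cast; linarith) (by push_cast; linarith) (by push_cast; linarith)
      (by push_cast; linarith)

/-- Integer coefficients. -/
def wPList : List (List ℤ) :=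
  [[],
    [],
    [4096000000, 0, 160000000, 0, -28000000, 0, 750000],
    [],
    [-209920000, 0, -10240000, 0, 1580000, 0, -43125],
    [],
    [-307200, 0, -28800, 0, 7400, 0, -150],
    [],
    [65536, 0, -1280, 0, 16]]

theorem wPBox0_checked : Check.boxPos2 wPList 0 4 0 4 = true := by decide +kernel

theorem wP_nonneg {e x : ℝ} (he : 0 < e) (he1 : e ≤ 16 / 25) (hx : 0 ≤ x)
    (hy : e * x ^ 2 ≤ 1) : 0 ≤ wP e (e * x ^ 2) := by
  refine nonneg_of_rect (p := fun e x => wP e (e * x ^ 2)) (L := wPList) (K := (800000000)) (k := 0) (by norm_num)
    (fun u x => ?_) (fun t z ht ht1 hz hz1 => ?_) he he1 hx hy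
  · simp only [wPList, Check.ev2, Check.ev1, Check.evP, wP]
    push_cast
    ring
  · exact Check.ev2_nonneg2 wPBox0_checked (by push_cast; linarith) (by push_cast; linarith) (by push_cast; linarith)
      (by push_cast; linarith)

/-- Integer coefficients. -/
def margNegList : List (List ℤ) :=
  [[1250000000, -50000000, -2000000, 80000],
    [-56250000, 3781250, 53750, -4600],
    [-93750, -80000, 3950, -16],
    [4375, -700, 16],
    [0, -3]]

theorem margNegBox0_checked : Check.boxPos2 margNegList 0 16 0 16 = true := by decide +kernel

theorem margNeg_nonneg {e x : ℝ} (he : 0 ≤ e) (he1 : e ≤ 16 / 25) (hx : 0 ≤ x)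
    (hx1 : x ≤ 16 / 25) : 0 ≤ 3 * g0 e * (1 - x) - gPoly e x := by
  have h := Check.ev2_nonneg2 margNegBox0_checked (t := 25 * e) (x := 25 * x)
    (by push_cast; linarith) (by push_cast; linarith) (by push_cast; linarith)
    (by push_cast; linarith)
  have eq : Check.ev2 margNegList (25 * e) (25 * x) = (9765625 / 4) * (3 * g0 e * (1 - x) - gPoly e x) := by
    simp only [margNegList, Check.ev2, Check.ev1, Check.evP, g0, g1, g2, g3, gPoly]
    push_cast
    ring
  rw [eq] at h
  exact nonneg_of_mul_nonneg_right h (by norm_num)

end Vale.Agent.P219.CH.GenK.Four
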