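import Vale.Agent.P219.GenK.Four.Edge
import Vale.Agent.P219.GenK.Four.Fast
import Vale.Agent.P219.GenK.Four.Sign

/-!
# P219, dimension four against curvature at most `-b ^ 2`: signs by checked boxes, part 5
-/

noncomputable section

namespace Vale.Agent.P219.CH.GenK.Four

/-- Integer coefficients. -/
def endDiagList : List (List ℤ) :=
  [[0, 81920000000000, 0, 0, 0, -2560000000000, 0, 480000000000, 0, -30000000000, 0, 625000000],
    [131072000000000, 0, -12288000000000, 0, -6112000000000, 0, 1140000000000, 0, -68250000000, 0, 1375000000],
    [0, 2867200000000, 0, -5990400000000, 0, 1089600000000, 0, -82650000000, 0, 2828125000, 0, -35937500],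
    [-5898240000000, 0, -1295360000000, 0, 710400000000, 0, -88260000000, 0, 4409375000, 0, -79062500],
    [0, -1071104000000, 0, 478848000000, 0, -62776000000, 0, 3269750000, 0, -57359375, 0, -125000],
    [-429260800000, 0, 187494400000, 0, -24169600000, 0, 1178200000, 0, -14125000, 0, -275000],
    [0, 45015040000, 0, -7317760000, 0, 360000000, 0, -1105000, 0, -211250],
    [24576000000, 0, -4364288000, 0, 234752000, 0, -2312000, 0, -82000],
    [0, 95027200, 0, -22016000, 0, 1548800, 0, -34000],
    [83886080, 0, -17203200, 0, 1105920, 0, -22400],
    [0, -786432, 0, 49152]]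

theorem endDiagBox0_checked : Check.boxPos2 endDiagList 0 4 0 2 = true := by decide +kernel

theorem endDiagBox1_checked : Check.boxPos2 endDiagList 0 2 2 4 = true := by decide +kernel

theorem endDiagBox2_checked : Check.boxPos2 endDiagList 2 3 2 3 = true := by decide +kernel

theorem endDiagBox3_checked : Check.boxPos2 endDiagList 3 4 2 3 = true := by decide +kernel

theorem endDiagBox4_checked : Check.boxPos2 endDiagList 2 4 3 4 = true := by decide +kernel

theorem endDiag_nonneg {e x : ℝ} (he : 0 < e) (he1 : e ≤ 16 / 25) (hx : 0 ≤ x)
    (hy : e * x ^ 2 ≤ 1) : 0 ≤ endDiag e x := by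
  refine nonneg_of_rect (p := fun e x => endDiag e x) (L := endDiagList) (K := (640000000000)) (k := 1) (by norm_num)
    (fun u x => ?_) (fun t z ht ht1 hz hz1 => ?_) he he1 hx hy
  · simp only [endDiagList, Check.ev2, Check.ev1, Check.evP, endDiag]
    push_cast
    ring
  · rcases le_total z 2 with hc | hc
    · exact Check.ev2_nonneg2 endDiagBox0_checked (by push_cast; linarith) (by push_cast; linarith) (by push_cast; linarith)
        (by push_cast; linarith)
    · rcases le_total t 2 with hc | hc
      · exact Check.ev2_nonneg2 endDiagBox1_checked (by push_cast; linarith) (by push_cast; linarith) (by push_cast; linarith)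
          (by push_cast; linarith)
      · rcases le_total z 3 with hc | hc
        · rcases le_total t 3 with hc | hc
          · exact Check.ev2_nonneg2 endDiagBox2_checked (by push_cast; linarith) (by push_cast; linarith) (by push_cast; linarith)
              (by push_cast; linarith)
          · exact Check.ev2_nonneg2 endDiagBox3_checked (by push_cast; linarith) (by push_cast; linarith) (by push_cast; linarith)
              (by push_cast; linarith)
        · exact Check.ev2_nonneg2 endDiagBox4_checked (by push_cast; linarith) (by push_cast; linarith) (by push_cast; linarith)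
            (by push_cast; linarith)

/-- Integer coefficients. -/
def edgeA1List : List (List ℤ) :=
  [[1638400000000000000, -1228800000000000000, 0, 153600000000000000],
    [-73728000000000000, 71680000000000000, -14336000000000000, 1280000000000000, -2688000000000000],
    [-2744320000000000, 358400000000000, 1011200000000000, -800000000000000, 172960000000000, 43200000000000, -27240000000000, -7680000000000],
    [156467200000000, -60416000000000, -665600000000, 13644800000000, -3907200000000, -531200000000, 1680000000000, 99200000000, 202200000000, 57600000000],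
    [524288000000, -286720000000, -1235968000000, 625152000000, 57408000000, -116672000000, 6564000000, 16264000000, -12051000000, -2598000000, -463500000, -144000000],
    [0, -1966080000, -3686400000, 2498560000, 3415040000, -1845760000, -325600000, 375200000, -21830000, -48900000, 27131250, 7775000, 360000, 120000],
    [0, 0, 0, 4915200, 9830400, -6707200, -3667200, 2419200, 402400, -433200, 65100, 58175, -20700, -6900],
    [0, 0, 0, 0, 0, 0, -9728, 5632, 1024, -1056, -96, 146, -72, -24]]

theorem edgeA1Box0_checked : Check.boxPos2 edgeA1List 0 8 0 4 = true := by decide +kernel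

theorem edgeA1Box1_checked : Check.boxPos2 edgeA1List 8 12 0 4 = true := by decide +kernel

theorem edgeA1Box2_checked : Check.boxPos2 edgeA1List 12 16 0 4 = true := by decide +kernel

theorem edgeA1_nonneg {e x : ℝ} (he : 0 ≤ e) (he1 : e ≤ 16 / 25) (hx : 0 ≤ 4 * x)
    (hx1 : 4 * x ≤ 4) : 0 ≤ piS e x 1 0 + (-((x - 1) * edgeLin e x) + edgeRight e x - 3 * edgeLeft e x) / 6 := by
  refine nonneg_of_strip (p := fun e x => piS e x 1 0 + (-((x - 1) * edgeLin e x) + edgeRight e x - 3 * edgeLeft e x) / 6) (L := edgeA1List) (K := (19200000000000000)) (a := 0) (b := 4)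
    (by norm_num) (fun e x => ?_) (fun t z ht ht1 hz hz1 => ?_) he he1 (by push_cast; linarith)
    (by push_cast; linarith)
  · simp only [edgeA1List, Check.ev2, Check.ev1, Check.evP, curv, dP, dQ, den, edgeLeft, edgeLin, edgeRight, endDiag, g0, g1, g2, g3, piS, q0c, q1c, q2c, res, symS, wP, wQ]
    push_cast
    ring
  · push_cast at hz hz1
    rcases le_total t 8 with hc | hc
    · exact Check.ev2_nonneg2 edgeA1Box0_checked (by push_cast; linarith) (by push_cast; linarith) (by push_cast; linarith)
        (by push_cast; linarith)
    · rcases le_total t 12 with hc | hc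
      · exact Check.ev2_nonneg2 edgeA1Box1_checked (by push_cast; linarith) (by push_cast; linarith) (by push_cast; linarith)
          (by push_cast; linarith)
      · exact Check.ev2_nonneg2 edgeA1Box2_checked (by push_cast; linarith) (by push_cast; linarith) (by push_cast; linarith)
          (by push_cast; linarith)

/-- Integer coefficients. -/
def edgeA0List : List (List ℤ) :=
  [[0, 0, 0, 51200000000000000],
    [0, 0, 0, -2304000000000000, -768000000000000],
    [0, 0, 0, -103680000000000, -1600000000000, 6720000000000, -8880000000000, -2560000000000],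
    [0, 0, 0, 5324800000000, 2412800000000, 217600000000, 825600000000, 131200000000, 66000000000, 19200000000],
    [0, 0, 0, 43776000000, -4096000000, -36288000000, -15912000000, -72000000, -4554000000, -1122000000, -153000000, -48000000],
    [0, 0, 0, 184320000, 0, -160000000, -51840000, 98000000, 30420000, -1740000, 9437500, 2805000, 120000, 40000],
    [0, 0, 0, 0, 0, -614400, 0, 337600, 148800, -83400, -6200, 7125, -6900, -2300],
    [0, 0, 0, 0, 0, 0, 0, 384, 0, -240, -128, 6, -24, -8]]

theorem edgeA0Box0_checked : Check.boxPos2 edgeA0List 0 8 0 4 = true := by decide +kernel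

theorem edgeA0Box1_checked : Check.boxPos2 edgeA0List 8 16 0 4 = true := by decide +kernel

theorem edgeA0_nonneg {e x : ℝ} (he : 0 ≤ e) (he1 : e ≤ 16 / 25) (hx : 0 ≤ 4 * x)
    (hx1 : 4 * x ≤ 4) : 0 ≤ piS e x 1 0 := by
  refine nonneg_of_strip (p := fun e x => piS e x 1 0) (L := edgeA0List) (K := (6400000000000000)) (a := 0) (b := 4)
    (by norm_num) (fun e x => ?_) (fun t z ht ht1 hz hz1 => ?_) he he1 (by push_cast; linarith)
    (by push_cast; linarith)
  · simp only [edgeA0List, Check.ev2, Check.ev1, Check.evP, curv, dP, dQ, den, g0, g1, g2, g3, piS, q0c, q1c, q2c, res, symS, wP, wQ]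
    push_cast
    ring
  · push_cast at hz hz1
    rcases le_total t 8 with hc | hc
    · exact Check.ev2_nonneg2 edgeA0Box0_checked (by push_cast; linarith) (by push_cast; linarith) (by push_cast; linarith)
        (by push_cast; linarith)
    · exact Check.ev2_nonneg2 edgeA0Box1_checked (by push_cast; linarith) (by push_cast; linarith) (by push_cast; linarith)
        (by push_cast; linarith)

/-- Integer coefficients. -/
def edgeB2List : List (List ℤ) :=
  [[14745600000000000000, -6144000000000000000, 0, 153600000000000000],
    [-663552000000000000, 407552000000000000, -129024000000000000, 34048000000000000, -4224000000000000],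
    [-43048960000000000, 1443840000000000, 4349440000000000, -3920640000000000, 1270560000000000, 137280000000000, -29640000000000, -7680000000000],
    [2463334400000000, -408166400000000, 404838400000000, 53657600000000, -43420800000000, -96000000000, -3004800000000, -1017600000000, 219000000000, 57600000000],
    [8388608000000, -2555904000000, -18086912000000, 3643648000000, -1704384000000, -416320000000, 245460000000, 70056000000, -2823000000, 234000000, -481500000, -144000000],
    [0, -15728640000, -60702720000, 18083840000, 43392000000, -10037760000, 3335200000, 1161520000, -582910000, -205600000, 20486250, 5455000, 360000, 120000],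
    [0, 0, 0, 39321600, 157286400, -42598400, -31673600, 10625600, -3287200, -1359400, 510300, 191575, -20700, -6900],
    [0, 0, 0, 0, 0, 0, -144896, 33408, -5632, -3184, 1440, 610, -72, -24]]

theorem edgeB2Box0_checked : Check.boxPos2 edgeB2List 0 16 0 3 = true := by decide +kernel

theorem edgeB2_nonneg {e x : ℝ} (he : 0 ≤ e) (he1 : e ≤ 16 / 25) (hx : 0 ≤ 4 * x)
    (hx1 : 4 * x ≤ 3) : 0 ≤ (x - 1) ^ 2 * endDiag e x + (x - 1) * edgeLin e x / 6 := by
  refine nonneg_of_strip (p := fun e x => (x - 1) ^ 2 * endDiag e x + (x - 1) * edgeLin e x / 6) (L := edgeB2List) (K := (19200000000000000)) (a := 0) (b := 3)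
    (by norm_num) (fun e x => ?_) (fun t z ht ht1 hz hz1 => ?_) he he1 (by push_cast; linarith)
    (by push_cast; linarith)
  · simp only [edgeB2List, Check.ev2, Check.ev1, Check.evP, edgeLin, endDiag]
    push_cast
    ring
  · push_cast at hz hz1
    exact Check.ev2_nonneg2 edgeB2Box0_checked (by push_cast; linarith) (by push_cast; linarith) (by push_cast; linarith)
      (by push_cast; linarith)

/-- Integer coefficients. -/
def symB11List : List (List ℤ) :=
  [[81920000000000],
    [0, -12288000000000, 0, -480000000000, 0, 84000000000, 0, -2250000000],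
    [-3686400000000, 0, 499200000000, 0, -21600000000, 0, -1200000000, 0, 56250000],
    [0, 1428480000000, 0, -53760000000, 0, -2340000000, 0, 129375000],
    [-325632000000, 0, -14208000000, 0, 2280000000, 0, 6750000, 0, -3234375],
    [0, -40243200000, 0, 4771200000, 0, -160200000, 0, 450000],
    [16752640000, 0, -902400000, 0, -55200000, 0, 3825000, 0, -11250],
    [0, -546816000, 0, 31104000, 0, -528000],
    [140083200, 0, 1228800, 0, -566400, 0, 13200],
    [0, -1474560, 0, 92160],
    [589824, 0, 0, 0, -2304]]

theorem symB11Box0_checked : Check.boxPos2 symB11List 0 4 0 4 = true := by decide +kernel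

theorem symB11_nonneg {e x : ℝ} (he : 0 < e) (he1 : e ≤ 16 / 25) (hx : 0 ≤ x)
    (hy : e * x ^ 2 ≤ 1) : 0 ≤ symB e x 1 1 := by
  refine nonneg_of_rect (p := fun e x => symB e x 1 1) (L := symB11List) (K := (160000000000)) (k := 0) (by norm_num)
    (fun u x => ?_) (fun t z ht ht1 hz hz1 => ?_) he he1 hx hy
  · simp only [symB11List, Check.ev2, Check.ev1, Check.evP, dP, dQ, den, symB, wP, wQ]
    push_cast
    ring
  · exact Check.ev2_nonneg2 symB11Box0_checked (by push_cast; linarith) (by push_cast; linarith) (by push_cast; linarith)
      (by push_cast; linarith)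

end Vale.Agent.P219.CH.GenK.Four
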