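import Vale.Agent.P219.GenK.Four.Edge
import Vale.Agent.P219.GenK.Four.Fast
import Vale.Agent.P219.GenK.Four.Sign

/-!
# P219, dimension four against curvature at most `-b ^ 2`: signs by checked boxes, part 6
-/

noncomputable section

namespace Vale.Agent.P219.CH.GenK.Four

/-- Integer coefficients. -/
def edgeLeftList : List (List ℤ) :=
  [[0, 0, 0, 0, 0, 240000000000, 0, 190000000000, 0, -18750000000, 0, 468750000],
    [262144000000000, 0, -57344000000000, 0, 9664000000000, 0, -936000000000, 0, 43500000000, 0, -750000000],
    [0, 26214400000000, 0, -11136000000000, 0, 1338400000000, 0, -77900000000, 0, 2251562500, 0, -26953125],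
    [-11796480000000, 0, -3164160000000, 0, 587520000000, 0, -15240000000, 0, -1098750000, 0, 43125000],
    [0, -1114112000000, 0, 589056000000, 0, -76632000000, 0, 3828500000, 0, -63687500, 0, -93750],
    [-1697382400000, 0, 647782400000, 0, -83654400000, 0, 4497200000, 0, -89400000, 0, 150000],
    [0, -1966080000, 0, 2393600000, 0, -246720000, 0, 11190000, 0, -230000],
    [97386496000, 0, -17068032000, 0, 919040000, 0, -9936000, 0, -288000],
    [0, -249036800, 0, 35430400, 0, -1638400, 0, 24800],
    [335544320, 0, -61931520, 0, 3932160, 0, -85760],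
    [0, -3145728, 0, 196608]]

theorem edgeLeftBox0_checked : Check.boxPos2 edgeLeftList 0 2 0 4 = true := by decide +kernel

theorem edgeLeftBox1_checked : Check.boxPos2 edgeLeftList 2 4 0 2 = true := by decide +kernel

theorem edgeLeftBox2_checked : Check.boxPos2 edgeLeftList 2 3 2 4 = true := by decide +kernel

theorem edgeLeftBox3_checked : Check.boxPos2 edgeLeftList 3 4 2 4 = true := by decide +kernel

theorem edgeLeft_nonneg {e x : ℝ} (he : 0 < e) (he1 : e ≤ 16 / 25) (hx : 0 ≤ x)
    (hy : e * x ^ 2 ≤ 1) : 0 ≤ edgeLeft e x := by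
  refine nonneg_of_rect (p := fun e x => edgeLeft e x) (L := edgeLeftList) (K := (2560000000000)) (k := 1) (by norm_num)
    (fun u x => ?_) (fun t z ht ht1 hz hz1 => ?_) he he1 hx hy
  · simp only [edgeLeftList, Check.ev2, Check.ev1, Check.evP, curv, dP, dQ, den, edgeLeft, edgeLin, endDiag, g0, g1, g2, g3, piS, q0c, q1c, q2c, res, symS, wP, wQ]
    push_cast
    ring
  · rcases le_total t 2 with hc | hc
    · exact Check.ev2_nonneg2 edgeLeftBox0_checked (by push_cast; linarith) (by push_cast; linarith) (by push_cast; linarith)
        (by push_cast; linarith)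
    · rcases le_total z 2 with hc | hc
      · exact Check.ev2_nonneg2 edgeLeftBox1_checked (by push_cast; linarith) (by push_cast; linarith) (by push_cast; linarith)
          (by push_cast; linarith)
      · rcases le_total t 3 with hc | hc
        · exact Check.ev2_nonneg2 edgeLeftBox2_checked (by push_cast; linarith) (by push_cast; linarith) (by push_cast; linarith)
            (by push_cast; linarith)
        · exact Check.ev2_nonneg2 edgeLeftBox3_checked (by push_cast; linarith) (by push_cast; linarith) (by push_cast; linarith)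
            (by push_cast; linarith)

/-- Integer coefficients. -/
def atOneList : List (List ℤ) :=
  [[81920000000000, 0, 0, 0, -2560000000000, 0, 480000000000, 0, -30000000000, 0, 625000000],
    [0, -6144000000000, 0, -1776000000000, 0, 330000000000, 0, -19125000000, 0, 375000000],
    [-3686400000000, 0, 268800000000, 0, 131200000000, 0, -28050000000, 0, 1753125000, 0, -35937500],
    [0, -12800000000, 0, 165120000000, 0, -22770000000, 0, 1179687500, 0, -21562500],
    [-165888000000, 0, 8704000000, 0, -72000000, 0, -43500000, 0, 4453125, 0, -125000],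
    [0, 19302400000, 0, -3182400000, 0, 152100000, 0, -775000, 0, -75000],
    [8519680000, 0, -1451520000, 0, 98000000, 0, -2085000, 0, 3750],
    [0, -32768000, 0, -10368000, 0, 744000, 0, -16000],
    [70041600, 0, -6400000, 0, 337600, 0, -6000],
    [],
    [294912, 0, -24576, 0, 384]]

theorem atOneBox0_checked : Check.boxPos2 atOneList 0 4 0 2 = true := by decide +kernel

theorem atOneBox1_checked : Check.boxPos2 atOneList 0 2 2 4 = true := by decide +kernel

theorem atOneBox2_checked : Check.boxPos2 atOneList 2 4 2 4 = true := by decide +kernel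

theorem atOne_nonneg {e x : ℝ} (he : 0 < e) (he1 : e ≤ 16 / 25) (hx : 0 ≤ x)
    (hy : e * x ^ 2 ≤ 1) : 0 ≤ atOne e x := by
  refine nonneg_of_rect (p := fun e x => atOne e x) (L := atOneList) (K := (160000000000)) (k := 0) (by norm_num)
    (fun u x => ?_) (fun t z ht ht1 hz hz1 => ?_) he he1 hx hy
  · simp only [atOneList, Check.ev2, Check.ev1, Check.evP, atOne, curv, dP, dQ, den, g2, g3, q1c, q2c, symS, wP, wQ]
    push_cast
    ring
  · rcases le_total z 2 with hc | hc
    · exact Check.ev2_nonneg2 atOneBox0_checked (by push_cast; linarith) (by push_cast; linarith) (by push_cast; linarith)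
        (by push_cast; linarith)
    · rcases le_total t 2 with hc | hc
      · exact Check.ev2_nonneg2 atOneBox1_checked (by push_cast; linarith) (by push_cast; linarith) (by push_cast; linarith)
          (by push_cast; linarith)
      · exact Check.ev2_nonneg2 atOneBox2_checked (by push_cast; linarith) (by push_cast; linarith) (by push_cast; linarith)
          (by push_cast; linarith)

/-- Integer coefficients. -/
def gainList : List (List ℤ) :=
  [[],
    [],
    [],
    [],
    [6656000000, 0, -1696000000, 0, 144000000, 0, -3750000],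
    [],
    [-343040000, 0, 95680000, 0, -8190000, 0, 215625],
    [],
    [-2918400, 0, 499200, 0, -34200, 0, 750],
    [],
    [-12288, 0, 1536, 0, -48]]

theorem gainBox0_checked : Check.boxPos2 gainList 0 4 0 2 = true := by decide +kernel

theorem gainBox1_checked : Check.boxPos2 gainList 0 4 2 3 = true := by decide +kernel

theorem gainBox2_checked : Check.boxPos2 gainList 0 4 3 4 = true := by decide +kernel

theorem gain_nonneg {e x : ℝ} (he : 0 < e) (he1 : e ≤ 16 / 25) (hx : 0 ≤ x)
    (hy : e * x ^ 2 ≤ 1) : 0 ≤ -(1 - e * x ^ 2) * dQ e (e * x ^ 2) - 2 * (e * x ^ 2) * wQ e (e * x ^ 2) := by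
  refine nonneg_of_rect (p := fun e x => -(1 - e * x ^ 2) * dQ e (e * x ^ 2) - 2 * (e * x ^ 2) * wQ e (e * x ^ 2)) (L := gainList) (K := (20000000000)) (k := 0) (by norm_num)
    (fun u x => ?_) (fun t z ht ht1 hz hz1 => ?_) he he1 hx hy
  · simp only [gainList, Check.ev2, Check.ev1, Check.evP, dQ, wQ]
    push_cast
    ring
  · rcases le_total z 2 with hc | hc
    · exact Check.ev2_nonneg2 gainBox0_checked (by push_cast; linarith) (by push_cast; linarith) (by push_cast; linarith)
        (by push_cast; linarith)
    · rcases le_total z 3 with hc | hc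
      · exact Check.ev2_nonneg2 gainBox1_checked (by push_cast; linarith) (by push_cast; linarith) (by push_cast; linarith)
          (by push_cast; linarith)
      · exact Check.ev2_nonneg2 gainBox2_checked (by push_cast; linarith) (by push_cast; linarith) (by push_cast; linarith)
          (by push_cast; linarith)

/-- Integer coefficients. -/
def midDiagList : List (List ℤ) :=
  [[0, 16384000000000, 0, 0, 0, -512000000000, 0, 96000000000, 0, -6000000000, 0, 125000000],
    [13107200000000, 0, -1228800000000, 0, -764800000000, 0, 142800000000, 0, -8625000000, 0, 175000000],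
    [0, -737280000000, 0, -199680000000, 0, 66240000000, 0, -7890000000, 0, 395625000, 0, -7187500],
    [-589824000000, 0, 34304000000, 0, 49152000000, 0, -8562000000, 0, 504437500, 0, -10062500],
    [0, -53657600000, 0, 20966400000, 0, -2628800000, 0, 129650000, 0, -1696875, 0, -25000],
    [-983040000, 0, 1464320000, 0, -128320000, 0, -8580000, 0, 1247500, 0, -35000],
    [0, 3072000000, 0, -529152000, 0, 30400000, 0, -379000, 0, -8250],
    [45875200, 0, -16998400, 0, 1356800, 0, -26400, 0, -200],
    [0, 10485760, 0, -2150400, 0, 138240, 0, -2800],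
    [0, 0, -147456, 0, 12288, 0, -192]]

theorem midDiagBox0_checked : Check.boxPos2 midDiagList 0 4 0 4 = true := by decide +kernel

theorem midDiag_nonneg {e x : ℝ} (he : 0 < e) (he1 : e ≤ 16 / 25) (hx : 0 ≤ x)
    (hy : e * x ^ 2 ≤ 1) : 0 ≤ midDiag e x := by
  refine nonneg_of_rect (p := fun e x => midDiag e x) (L := midDiagList) (K := (128000000000)) (k := 1) (by norm_num)
    (fun u x => ?_) (fun t z ht ht1 hz hz1 => ?_) he he1 hx hy
  · simp only [midDiagList, Check.ev2, Check.ev1, Check.evP, midDiag]
    push_cast
    ring
  · exact Check.ev2_nonneg2 midDiagBox0_checked (by push_cast; linarith) (by push_cast; linarith) (by push_cast; linarith)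
      (by push_cast; linarith)

/-- Integer coefficients. -/
def atZeroList : List (List ℤ) :=
  [[3276800000000, 0, 0, 0, -102400000000, 0, 19200000000, 0, -1200000000, 0, 25000000],
    [0, 0, 0, -61440000000, 0, 11520000000, 0, -720000000, 0, 15000000],
    [-147456000000, 0, 9216000000, 0, 4032000000, 0, -1002000000, 0, 67125000, 0, -1437500],
    [0, -13107200000, 0, 5990400000, 0, -816000000, 0, 44600000, 0, -862500],
    [-245760000, 0, -599040000, 0, 127040000, 0, -9750000, 0, 350625, 0, -5000],
    [0, 753664000, 0, -129024000, 0, 6528000, 0, -40000, 0, -3000],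
    [11468800, 0, -2611200, 0, 857600, 0, -43800, 0, 750],
    [0, 2621440, 0, -491520, 0, 30720, 0, -640],
    [0, 0, -36864, 0, 3072, 0, -48]]

theorem atZeroBox0_checked : Check.boxPos2 atZeroList 0 4 0 4 = true := by decide +kernel

theorem atZero_nonneg {e x : ℝ} (he : 0 < e) (he1 : e ≤ 16 / 25) (hx : 0 ≤ x)
    (hy : e * x ^ 2 ≤ 1) : 0 ≤ atZero e x := by
  refine nonneg_of_rect (p := fun e x => atZero e x) (L := atZeroList) (K := (6400000000)) (k := 0) (by norm_num)
    (fun u x => ?_) (fun t z ht ht1 hz hz1 => ?_) he he1 hx hy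
  · simp only [atZeroList, Check.ev2, Check.ev1, Check.evP, atZero, curv, dP, dQ, den, g2, g3, q1c, q2c, symS, wP, wQ]
    push_cast
    ring
  · exact Check.ev2_nonneg2 atZeroBox0_checked (by push_cast; linarith) (by push_cast; linarith) (by push_cast; linarith)
      (by push_cast; linarith)

/-- Integer coefficients. -/
def wSumList : List (List ℤ) :=
  [[],
    [],
    [101600000000, 0, 4000000000, 0, -700000000, 0, 18750000],
    [],
    [-11872000000, 0, 448000000, 0, 19500000, 0, -1078125],
    [],
    [335360000, 0, -39760000, 0, 1335000, 0, -3750],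
    [],
    [4556800, 0, -259200, 0, 4400],
    [],
    [12288, 0, -768]]

theorem wSumBox0_checked : Check.boxPos2 wSumList 0 4 0 4 = true := by decide +kernel

theorem wSum_nonneg {e x : ℝ} (he : 0 < e) (he1 : e ≤ 16 / 25) (hx : 0 ≤ x)
    (hy : e * x ^ 2 ≤ 1) : 0 ≤ wP e (e * x ^ 2) + wQ e (e * x ^ 2) - e * (1 - e) := by
  refine nonneg_of_rect (p := fun e x => wP e (e * x ^ 2) + wQ e (e * x ^ 2) - e * (1 - e)) (L := wSumList) (K := (20000000000)) (k := 0) (by norm_num)
    (fun u x => ?_) (fun t z ht ht1 hz hz1 => ?_) he he1 hx hy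
  · simp only [wSumList, Check.ev2, Check.ev1, Check.evP, wP, wQ]
    push_cast
    ring
  · exact Check.ev2_nonneg2 wSumBox0_checked (by push_cast; linarith) (by push_cast; linarith) (by push_cast; linarith)
      (by push_cast; linarith)

/-- Integer coefficients. -/
def wQList : List (List ℤ) :=
  [[],
    [],
    [],
    [],
    [416000000, 0, -44000000, 0, 1250000],
    [],
    [-21440000, 0, 2440000, 0, -71875],
    [],
    [-182400, 0, 14200, 0, -250],
    [],
    [-768, 0, 48]]

theorem wQBox0_checked : Check.boxPos2 wQList 0 4 0 4 = true := by decide +kernel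

theorem wQ_nonneg {e x : ℝ} (he : 0 < e) (he1 : e ≤ 16 / 25) (hx : 0 ≤ x)
    (hy : e * x ^ 2 ≤ 1) : 0 ≤ -wQ e (e * x ^ 2) := by
  refine nonneg_of_rect (p := fun e x => -wQ e (e * x ^ 2)) (L := wQList) (K := (1250000000)) (k := 0) (by norm_num)
    (fun u x => ?_) (fun t z ht ht1 hz hz1 => ?_) he he1 hx hy
  · simp only [wQList, Check.ev2, Check.ev1, Check.evP, wQ]
    push_cast
    ring
  · exact Check.ev2_nonneg2 wQBox0_checked (by push_cast; linarith) (by push_cast; linarith) (by push_cast; linarith)
      (by push_cast; linarith)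

end Vale.Agent.P219.CH.GenK.Four
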