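import Vale.Agent.P219.GenK.Four.SignA
import Vale.Agent.P219.GenK.Four.SignB
import Vale.Agent.P219.GenK.Four.SignC
import Vale.Agent.P219.GenK.Four.SignD
import Vale.Agent.P219.GenK.Four.SignE
import Vale.Agent.P219.GenK.Four.SignF

/-!
# P219, dimension four against curvature at most `-b ^ 2`: the reduced inequality

`piS` is concave in `q` at fixed `s`, so it suffices to check `q = 0` for `s ≤ 1`, the edge `d = 1`
for `1 ≤ s` and the diagonal `q = s ^ 2 / 4`.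
-/

noncomputable section

namespace Vale.Agent.P219.CH.GenK.Four

/-- A cubic form with nonnegative Bernstein coefficients. -/
theorem bern_three {b₀ b₁ b₂ b₃ t : ℝ} (h0 : 0 ≤ b₀) (h1 : 0 ≤ b₁) (h2 : 0 ≤ b₂) (h3 : 0 ≤ b₃)
    (ht : 0 ≤ t) (ht1 : t ≤ 1) :
    0 ≤ (1 - t) ^ 3 * b₀ + 3 * t * (1 - t) ^ 2 * b₁ + 3 * t ^ 2 * (1 - t) * b₂ + t ^ 3 * b₃ := by
  have : 0 ≤ 1 - t := sub_nonneg.2 ht1
  positivity

theorem piS_edge_eq (e x c : ℝ) :
    piS e x (1 + c) c = (x - 1) ^ 2 * endDiag e x + (1 - c) * ((x - 1) * edgeLin e x)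
      + (1 - c) ^ 2 * (edgeLeft e x + (edgeRight e x - edgeLeft e x) * c) := by
  simp only [edgeLeft, piS, symS, endDiag, edgeLin, edgeRight, curv, q0c, q1c, q2c, res, den, g0, g1,
    g2, g3, wP, wQ, dP, dQ]
  ring

theorem piS_diag_eq (e x m : ℝ) :
    piS e x (2 * m) (m ^ 2) = (x - m) ^ 2 * ((1 - m) ^ 2 * (x * atZero e x)
      + 2 * m * (1 - m) * midDiag e x + m ^ 2 * endDiag e x) := by
  simp only [atZero, piS, symS, endDiag, midDiag, curv, q0c, q1c, q2c, res, den, g0, g1, g2, g3, wP,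
    wQ, dP, dQ]
  ring

theorem piS_zero_eq (e x s : ℝ) :
    piS e x s 0 = x ^ 3 * ((1 - s) ^ 2 * atZero e x + 2 * s * (1 - s) * atHalf e x
      + s ^ 2 * atOne e x) := by
  simp only [piS, atZero, atHalf, atOne, symS]
  ring

theorem piS_chord (e x s a b q : ℝ) :
    (b - a) * piS e x s q = (b - q) * piS e x s a + (q - a) * piS e x s b
      + (b - a) * ((q - a) * (b - q)) * -qLead e x := by
  simp only [piS, symS, qLead]
  ring

variable {e x : ℝ}

/-- The edge `d = 1`. -/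
theorem piS_edge (he : 0 < e) (he1 : e ≤ 16 / 25) (hx : 0 ≤ x) (hy : e * x ^ 2 ≤ 1) {c : ℝ}
    (hc : 0 ≤ c) (hc1 : c ≤ 1) : 0 ≤ piS e x (1 + c) c := by
  have hM := endDiag_nonneg he he1 hx hy
  have hl := edgeLin_nonneg he he1 hx hy
  have hL := edgeLeft_nonneg he he1 hx hy
  have hR := edgeRight_nonneg he he1 hx hy
  have hv : 0 ≤ 1 - c := sub_nonneg.2 hc1
  rcases le_total 1 x with hx1 | hx1
  · rw [piS_edge_eq, show edgeLeft e x + (edgeRight e x - edgeLeft e x) * c =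
      (1 - c) * edgeLeft e x + c * edgeRight e x by ring]
    have : 0 ≤ x - 1 := sub_nonneg.2 hx1
    positivity
  have hx4 : 0 ≤ 4 * x := by linarith
  have hx14 : 4 * x ≤ 4 := by linarith
  have h3 := edgeHalf_nonneg he.le he1 hx4 hx14
  rcases le_total c (1 / 2) with h | h
  · have h0 := edgeA0_nonneg he.le he1 hx4 hx14
    have h1 := edgeA1_nonneg he.le he1 hx4 hx14
    have h2 := edgeA2_nonneg he.le he1 hx4 hx14
    refine le_of_le_of_eq
      (bern_three h0 h1 h2 h3 (show 0 ≤ 2 * c by linarith) (show 2 * c ≤ 1 by linarith)) ?_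
    rw [piS_edge_eq, edgeHalf, edgeSlope, edgeLeft]
    ring
  · rcases le_total x (3 / 4) with h' | h'
    · have h1 := edgeB1_nonneg he.le he1 hx4 (show 4 * x ≤ 3 by linarith)
      have h2 := edgeB2_nonneg he.le he1 hx4 (show 4 * x ≤ 3 by linarith)
      refine le_of_le_of_eq (bern_three h3 h1 h2 (mul_nonneg (sq_nonneg (x - 1)) hM)
        (show 0 ≤ 2 * c - 1 by linarith) (show 2 * c - 1 ≤ 1 by linarith)) ?_
      rw [piS_edge_eq, edgeHalf, edgeSlope]
      ring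
    · have d1 := discRight_nonneg he.le he1 (show 3 ≤ 4 * x by linarith) hx14
      have d2 := discMid_nonneg he.le he1 (show 3 ≤ 4 * x by linarith) hx14
      obtain ⟨K, hK⟩ : ∃ K, K = edgeLeft e x + (edgeRight e x - edgeLeft e x) * c := ⟨_, rfl⟩
      have hK0 : 0 ≤ K := by
        rw [hK, show edgeLeft e x + (edgeRight e x - edgeLeft e x) * c =
          (1 - c) * edgeLeft e x + c * edgeRight e x by ring]
        positivity
      have hd : 0 ≤ 4 * endDiag e x * K - edgeLin e x ^ 2 := by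
        rw [hK, show 4 * endDiag e x * (edgeLeft e x + (edgeRight e x - edgeLeft e x) * c)
            - edgeLin e x ^ 2 =
          (2 * c - 1) * (4 * endDiag e x * edgeRight e x - edgeLin e x ^ 2)
            + 2 * (1 - c) * (2 * endDiag e x * (edgeLeft e x + edgeRight e x) - edgeLin e x ^ 2)
          by ring]
        exact add_nonneg (mul_nonneg (by linarith) d1) (mul_nonneg (by linarith) d2)
      rw [piS_edge_eq, ← hK]
      rcases hM.eq_or_lt with h0 | h0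
      · rw [← h0] at hd
        have : edgeLin e x = 0 := by nlinarith
        rw [← h0, this, mul_zero, mul_zero, mul_zero, zero_add, zero_add]
        positivity
      · refine nonneg_of_mul_nonneg_right (a := 4 * endDiag e x) ?_ (by linarith)
        rw [show 4 * endDiag e x * ((x - 1) ^ 2 * endDiag e x
            + (1 - c) * ((x - 1) * edgeLin e x) + (1 - c) ^ 2 * K) =
          (2 * endDiag e x * (x - 1) + (1 - c) * edgeLin e x) ^ 2
            + (1 - c) ^ 2 * (4 * endDiag e x * K - edgeLin e x ^ 2) by ring]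
        positivity

/-- The reduced inequality. -/
theorem piS_nonneg (he : 0 < e) (he1 : e ≤ 16 / 25) (hx : 0 ≤ x) (hy : e * x ^ 2 ≤ 1) {c d : ℝ}
    (hc : 0 ≤ c) (hc1 : c ≤ 1) (hd : 0 ≤ d) (hd1 : d ≤ 1) : 0 ≤ piS e x (c + d) (c * d) := by
  obtain ⟨s, hs⟩ : ∃ s, s = c + d := ⟨_, rfl⟩
  obtain ⟨q, hq⟩ : ∃ q, q = c * d := ⟨_, rfl⟩
  rw [← hs, ← hq]
  have hq1 : q ≤ (s / 2) ^ 2 := by rw [hs, hq]; linarith [sq_nonneg (c - d)]
  have htop : 0 ≤ piS e x s ((s / 2) ^ 2) := by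
    have h0 : 0 ≤ 1 - s / 2 := by linarith
    have h1 : 0 ≤ s / 2 := by linarith
    have : 0 ≤ s := by linarith
    have := atZero_nonneg he he1 hx hy
    have := midDiag_nonneg he he1 hx hy
    have := endDiag_nonneg he he1 hx hy
    have e2 := piS_diag_eq e x (s / 2)
    rw [show 2 * (s / 2) = s by ring] at e2
    rw [e2]
    positivity
  have hlow : ∃ a, a ≤ q ∧ 0 ≤ piS e x s a := by
    rcases le_total s 1 with h | h
    · refine ⟨0, hq ▸ mul_nonneg hc hd, ?_⟩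
      rw [piS_zero_eq]
      have := atZero_nonneg he he1 hx hy
      have := atHalf_nonneg he he1 hx hy
      have := atOne_nonneg he he1 hx hy
      have : 0 ≤ 1 - s := sub_nonneg.2 h
      have : 0 ≤ s := by linarith
      positivity
    · refine ⟨s - 1, ?_, ?_⟩
      · rw [hs, hq]; linarith [mul_nonneg (sub_nonneg.2 hc1) (sub_nonneg.2 hd1)]
      · have := piS_edge he he1 hx hy (show 0 ≤ s - 1 by linarith) (show s - 1 ≤ 1 by linarith)
        rwa [show 1 + (s - 1) = s by ring] at this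
  obtain ⟨a, ha, ha0⟩ := hlow
  rcases (ha.trans hq1).eq_or_lt with h | h
  · rwa [show q = a from le_antisymm (h ▸ hq1) ha]
  · refine nonneg_of_mul_nonneg_right (a := (s / 2) ^ 2 - a) ?_ (sub_pos.2 h)
    rw [piS_chord e x s a ((s / 2) ^ 2) q]
    have h1 : 0 ≤ q - a := sub_nonneg.2 ha
    have h2 : 0 ≤ (s / 2) ^ 2 - q := sub_nonneg.2 hq1
    exact add_nonneg (add_nonneg (mul_nonneg h2 ha0) (mul_nonneg h1 htop))
      (mul_nonneg (mul_nonneg (sub_pos.2 h).le (mul_nonneg h1 h2)) (qLead_nonneg he he1 hx hy))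

/-- The symmetrised integrand is nonnegative. -/
theorem symS_nonneg (he : 0 < e) (he1 : e ≤ 16 / 25) (hx : 0 ≤ x) (hy : e * x ^ 2 ≤ 1) {c d : ℝ}
    (hc : 0 ≤ c) (hc1 : c ≤ 1) (hd : 0 ≤ d) (hd1 : d ≤ 1) : 0 ≤ symS e x (c + d) (c * d) := by
  have h00 := symB00_nonneg he he1 hx hy
  have h10 := symB10_nonneg he he1 hx hy
  have h11 := symB11_nonneg he he1 hx hy
  obtain ⟨P, hP⟩ : ∃ P, P = wP e (e * x ^ 2) := ⟨_, rfl⟩
  obtain ⟨Q, hQ⟩ : ∃ Q, Q = wQ e (e * x ^ 2) := ⟨_, rfl⟩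
  have hQ0 : 0 ≤ -Q := hQ ▸ wQ_nonneg he he1 hx hy
  have hPQ : 0 ≤ P + Q := by
    have h := wSum_nonneg he he1 hx hy
    rw [← hP, ← hQ] at h
    linarith [mul_nonneg he.le (show 0 ≤ 1 - e by linarith)]
  have hc2 : c ^ 2 ≤ 1 := pow_le_one₀ hc hc1
  have hd2 : d ^ 2 ≤ 1 := pow_le_one₀ hd hd1
  have : 0 ≤ 1 - c ^ 2 := sub_nonneg.2 hc2
  have : 0 ≤ 1 - d ^ 2 := sub_nonneg.2 hd2
  have hu : 0 ≤ P + c ^ 2 * Q := by linarith [mul_nonneg (sub_nonneg.2 hc2) hQ0]
  have hv : 0 ≤ P + d ^ 2 * Q := by linarith [mul_nonneg (sub_nonneg.2 hd2) hQ0]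
  have hW : 0 ≤ 1 - e * x ^ 2 := sub_nonneg.2 hy
  have key : symS e x (c + d) (c * d) =
      (1 - c ^ 2) * (1 - d ^ 2) * symB e x 0 0
        + ((1 - c ^ 2) * d ^ 2 + c ^ 2 * (1 - d ^ 2)) * symB e x 1 0
        + c ^ 2 * d ^ 2 * symB e x 1 1
        + 3 * x * ((1 - d) ^ 2 * (P + c ^ 2 * Q) + (1 - c) ^ 2 * (P + d ^ 2 * Q))
        + 2 * (1 - e * x ^ 2) * -Q * ((c - d) ^ 2 + c * d * (c - d) ^ 2) := by
    simp only [symS, symB, ← hP, ← hQ]
    ring
  rw [key]
  positivity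

end Vale.Agent.P219.CH.GenK.Four
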