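import Mathlib

/-!
# P219: sign of an integer polynomial in two variables on a box

Both variables are replaced by their barycentric coordinates on the box; when every resulting
coefficient is nonnegative, so is the polynomial. Only integer arithmetic is evaluated.
-/

noncomputable section

namespace Vale.Agent.P219.CH.GenK.Four.Check

section Generic

variable {M : Type}

/-- Multiply the form with coefficients `l` by `a g + b f`, `p` the preceding coefficient. -/
def mulAux (lin : ℤ → M → ℤ → M → M) (a b : ℤ) (z : M) : M → List M → List M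
  | p, [] => [lin b p 0 z]
  | p, c :: l => lin a c b p :: mulAux lin a b z c l

/-- Coefficientwise sum. -/
def zadd (lin : ℤ → M → ℤ → M → M) : List M → List M → List M
  | c :: k, d :: l => lin 1 c 1 d :: zadd lin k l
  | _, _ => []

/-- The constant `c` as a form of degree `n`. -/
def const (lin : ℤ → M → ℤ → M → M) (z : M) (c : M) : ℕ → List M
  | 0 => [c]
  | n + 1 => mulAux lin 1 1 z z (const lin z c n)

/-- The polynomial with coefficients `l` at `a g + b f`, as a form. -/
def trans (lin : ℤ → M → ℤ → M → M) (a b : ℤ) (z : M) : List M → List M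
  | [] => []
  | c :: l => zadd lin (const lin z c l.length) (mulAux lin a b z z (trans lin a b z l))

/-- The value of a form. -/
def evB (v : M → ℝ) (f g : ℝ) : List M → ℝ
  | [] => 0
  | c :: l => v c * g ^ l.length + f * evB v f g l

/-- The value of a polynomial. -/
def evP (v : M → ℝ) (t : ℝ) : List M → ℝ
  | [] => 0
  | c :: l => v c + t * evP v t l

variable {lin : ℤ → M → ℤ → M → M} {v : M → ℝ} {z : M}

lemma length_mulAux (a b : ℤ) : ∀ (p : M) (l : List M),
    (mulAux lin a b z p l).length = l.length + 1
  | p, [] => by simp [mulAux]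
  | p, c :: l => by simp [mulAux, length_mulAux a b c l]

lemma length_zadd : ∀ (k l : List M), k.length = l.length → (zadd lin k l).length = l.length
  | [], [], _ => by simp [zadd]
  | c :: k, [], h => by simp at h
  | [], d :: l, h => by simp at h
  | c :: k, d :: l, h => by simp [zadd, length_zadd k l (by simpa using h)]

lemma length_const (c : M) : ∀ n, (const lin z c n).length = n + 1
  | 0 => by simp [const]
  | n + 1 => by simp [const, length_mulAux, length_const c n]

lemma length_trans (a b : ℤ) : ∀ l : List M, (trans lin a b z l).length = l.length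
  | [] => by simp [trans]
  | c :: l => by
    rw [trans, length_zadd _ _ (by rw [length_const, length_mulAux, length_trans a b l]),
      length_mulAux, length_trans a b l, List.length_cons]

variable (hl : ∀ a x b y, v (lin a x b y) = a * v x + b * v y) (hz : v z = 0)

include hl hz

lemma evB_mulAux (a b : ℤ) (f g : ℝ) : ∀ (p : M) (l : List M),
    evB v f g (mulAux lin a b z p l) =
      b * v p * g ^ l.length + (a * g + b * f) * evB v f g l
  | p, [] => by simp [mulAux, evB, hl, hz]
  | p, c :: l => by
    simp only [mulAux, evB, evB_mulAux a b f g c l, length_mulAux, List.length_cons, hl]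
    ring

omit hz in
lemma evB_zadd (f g : ℝ) : ∀ (k l : List M), k.length = l.length →
    evB v f g (zadd lin k l) = evB v f g k + evB v f g l
  | [], [], _ => by simp [zadd, evB]
  | c :: k, [], h => by simp at h
  | [], d :: l, h => by simp at h
  | c :: k, d :: l, h => by
    have h' : k.length = l.length := by simpa using h
    simp only [zadd, evB, evB_zadd f g k l h', hl, length_zadd k l h', h']
    push_cast
    ring

lemma evB_const (f g : ℝ) (hfg : f + g = 1) (c : M) : ∀ n, evB v f g (const lin z c n) = v c
  | 0 => by simp [const, evB]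
  | n + 1 => by
    rw [const, evB_mulAux hl hz, evB_const f g hfg c n, hz]
    push_cast
    rw [show (1 : ℝ) * g + 1 * f = 1 by linarith]
    ring

lemma evB_trans (a b : ℤ) (f g : ℝ) (hfg : f + g = 1) : ∀ l : List M,
    evB v f g (trans lin a b z l) = evP v (a * g + b * f) l
  | [] => by simp [trans, evB, evP]
  | c :: l => by
    rw [trans, evB_zadd hl f g _ _ (by rw [length_const, length_mulAux, length_trans]),
      evB_const hl hz f g hfg, evB_mulAux hl hz, evB_trans a b f g hfg l, hz, evP]
    ring

end Generic

lemma evB_nonneg {M : Type} {v : M → ℝ} {f g : ℝ} (hf : 0 ≤ f) (hg : 0 ≤ g) :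
    ∀ l : List M, (∀ c ∈ l, 0 ≤ v c) → 0 ≤ evB v f g l
  | [], _ => by simp [evB]
  | c :: l, h => by
    rw [evB]
    exact add_nonneg (mul_nonneg (h c (by simp)) (pow_nonneg hg _))
      (mul_nonneg hf (evB_nonneg hf hg l fun d hd => h d (by simp [hd])))

/-- A linear combination of two integers. -/
def lin0 (a x b y : ℤ) : ℤ := a * x + b * y

/-- A linear combination of two polynomials. -/
def lin1 (a : ℤ) : List ℤ → ℤ → List ℤ → List ℤ
  | [], b, l => l.map (b * ·)
  | c :: k, b, [] => a * c :: lin1 a k b []
  | c :: k, b, d :: l => (a * c + b * d) :: lin1 a k b l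

/-- The value of a polynomial with integer coefficients. -/
def ev1 (t : ℝ) (l : List ℤ) : ℝ := evP (fun c : ℤ => (c : ℝ)) t l

lemma ev1_map (t : ℝ) (b : ℤ) : ∀ l : List ℤ, ev1 t (l.map (b * ·)) = b * ev1 t l
  | [] => by simp [ev1, evP]
  | c :: l => by
    have h := ev1_map t b l
    simp only [ev1, List.map_cons, evP] at h ⊢
    rw [h]
    push_cast
    ring

lemma ev1_lin1 (t : ℝ) (a : ℤ) : ∀ (k : List ℤ) (b : ℤ) (l : List ℤ),
    ev1 t (lin1 a k b l) = a * ev1 t k + b * ev1 t l
  | [], b, l => by
    rw [lin1, ev1_map]
    simp [ev1, evP]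
  | c :: k, b, [] => by
    have h := ev1_lin1 t a k b []
    simp only [lin1, ev1, evP] at h ⊢
    rw [h]
    push_cast
    ring
  | c :: k, b, d :: l => by
    have h := ev1_lin1 t a k b l
    simp only [lin1, ev1, evP] at h ⊢
    rw [h]
    push_cast
    ring

/-- The value of a polynomial in two variables, given row by row. -/
def ev2 (p : List (List ℤ)) (t x : ℝ) : ℝ := evP (ev1 x) t p

/-- Every barycentric coefficient on the box is nonnegative. -/
def boxPos (p : List (List ℤ)) (a b c d : ℤ) : Bool :=
  decide (a < b) && decide (c < d) &&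
    (trans lin1 a b [] p).all fun r => (trans lin0 c d 0 r).all fun k => decide (0 ≤ k)

/-- A checked box. -/
theorem ev2_nonneg {p : List (List ℤ)} {a b c d : ℤ} (h : boxPos p a b c d = true) {t x : ℝ}
    (ht1 : (a : ℝ) ≤ t) (ht2 : t ≤ b) (hx1 : (c : ℝ) ≤ x) (hx2 : x ≤ d) : 0 ≤ ev2 p t x := by
  simp only [boxPos, Bool.and_eq_true, decide_eq_true_eq, List.all_eq_true] at h
  obtain ⟨⟨hab, hcd⟩, hall⟩ := h
  have hab' : (a : ℝ) < b := by exact_mod_cast hab
  have hcd' : (c : ℝ) < d := by exact_mod_cast hcd
  have et : (a : ℝ) * ((b - t) / (b - a)) + b * ((t - a) / (b - a)) = t := by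
    field_simp [(sub_pos.2 hab').ne']
    ring
  have ex : (c : ℝ) * ((d - x) / (d - c)) + d * ((x - c) / (d - c)) = x := by
    field_simp [(sub_pos.2 hcd').ne']
    ring
  have st : (t - a) / ((b : ℝ) - a) + (b - t) / (b - a) = 1 := by
    field_simp [(sub_pos.2 hab').ne']
    ring
  have sx : (x - c) / ((d : ℝ) - c) + (d - x) / (d - c) = 1 := by
    field_simp [(sub_pos.2 hcd').ne']
    ring
  have e := evB_trans (lin := lin1) (v := ev1 x) (z := []) (fun a k b l => ev1_lin1 x a k b l)
    (by simp [ev1, evP]) a b ((t - a) / ((b : ℝ) - a)) ((b - t) / ((b : ℝ) - a)) st p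
  rw [et] at e
  rw [ev2, ← e]
  refine evB_nonneg (div_nonneg (by linarith) (by linarith)) (div_nonneg (by linarith) (by linarith))
    _ fun r hr => ?_
  have e' := evB_trans (lin := lin0) (v := fun k : ℤ => (k : ℝ)) (z := 0)
    (fun a k b l => by simp [lin0]) (by simp) c d ((x - c) / ((d : ℝ) - c))
    ((d - x) / ((d : ℝ) - c)) sx r
  rw [ex] at e'
  rw [ev1, ← e']
  exact evB_nonneg (div_nonneg (by linarith) (by linarith)) (div_nonneg (by linarith) (by linarith))
    _ fun k hk => by exact_mod_cast hall r hr k hk

end Vale.Agent.P219.CH.GenK.Four.Check
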