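import Vale.Agent.P219.GenK.Defs

/-!
# P219, dimension four against curvature at most `-b ^ 2`: the coefficients

With `e = tanh ρ ^ 2`, `x = tanh (r / 2) / tanh ρ` and `y = e x ^ 2` everything is rational in
`e, x, c, d` apart from `artanh (tanh ρ * t)`.
-/

noncomputable section

namespace Vale.Agent.P219.CH.GenK.Four

/-- The common denominator. -/
def den (e : ℝ) : ℝ := 32 * (1 - e) ^ 3 * (8 + 3 * e)

/-- One third of the numerator of the volume coefficient. -/
def g0 (e : ℝ) : ℝ := 256 - 288 * e - 12 * e ^ 2 + 14 * e ^ 3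

/-- First coefficient of the marginal polynomial. -/
def g1 (e : ℝ) : ℝ := -256 - 104 * e + 548 * e ^ 2 + 70 * e ^ 3 + 12 * e ^ 4

/-- Second coefficient of the marginal polynomial. -/
def g2 (e : ℝ) : ℝ := 512 - 344 * e - 632 * e ^ 2 - 64 * e ^ 3

/-- Third coefficient of the marginal polynomial. -/
def g3 (e : ℝ) : ℝ := -512 + 736 * e + 64 * e ^ 2

/-- The marginal polynomial in `u = e t ^ 2`. -/
def gPoly (e u : ℝ) : ℝ := g0 e + g1 e * u + g2 e * u ^ 2 + g3 e * u ^ 3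

/-- The marginal coefficient against the ball of radius `ρ`. -/
def aFour (ρ t : ℝ) : ℝ :=
  (2 * Real.tanh ρ) ^ 3 / den (Real.tanh ρ ^ 2) *
    (t ^ 2 * gPoly (Real.tanh ρ ^ 2) (Real.tanh ρ ^ 2 * t ^ 2) / (1 - Real.tanh ρ ^ 2 * t ^ 2) -
      3 * g0 (Real.tanh ρ ^ 2) * t * Real.artanh (Real.tanh ρ * t) / Real.tanh ρ)

/-- The volume coefficient against the ball of radius `ρ`. -/
def betaFour (ρ : ℝ) : ℝ :=
  (2 * Real.tanh ρ) ^ 2 * (3 * g0 (Real.tanh ρ ^ 2)) / den (Real.tanh ρ ^ 2)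

end Vale.Agent.P219.CH.GenK.Four
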