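import Vale.Agent.P219.GenK.Four.Poly

/-!
# P219, dimension four against curvature at most `-b ^ 2`: coefficients on the boundary
-/

noncomputable section

namespace Vale.Agent.P219.CH.GenK.Four

/-- The middle coefficient of the diagonal, over `(x - m) ^ 2`. -/
def midDiag (e x : ℝ) : ℝ :=
  ((512) + (-576) * e + (-24) * e ^ 2 + (28) * e ^ 3)
    + ((512) + (-576) * e + (-1048) * e ^ 2 + (1500) * e ^ 3 + (128) * e ^ 4) * x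
    + ((-768) * e + (536) * e ^ 2 + (572) * e ^ 3 + (-166) * e ^ 4 + (-36) * e ^ 5) * x ^ 2
    + ((-2496) * e ^ 2 + (6552) * e ^ 3 + (-4134) * e ^ 4 + (-420) * e ^ 5) * x ^ 3
    + ((-7648) * e ^ 2 + (12288) * e ^ 3 + (-802) * e ^ 4 + (212) * e ^ 5 + (48) * e ^ 6) * x ^ 4
    + ((-4096) * e ^ 2 + (13248) * e ^ 3 + (-13144) * e ^ 4 + (3800) * e ^ 5 + (432) * e ^ 6) * x ^ 5
    + ((22848) * e ^ 3 + (-34248) * e ^ 4 + (-858) * e ^ 5 + (-66) * e ^ 6 + (-12) * e ^ 7) * x ^ 6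
    + ((12288) * e ^ 3 + (-25248) * e ^ 4 + (10372) * e ^ 5 + (-758) * e ^ 6 + (-140) * e ^ 7) * x ^ 7
    + ((-22080) * e ^ 4 + (32284) * e ^ 5 + (1996) * e ^ 6 + (-8) * e ^ 7) * x ^ 8
    + ((-12288) * e ^ 4 + (20256) * e ^ 5 + (-2172) * e ^ 6 + (-264) * e ^ 7) * x ^ 9
    + ((7168) * e ^ 5 + (-10304) * e ^ 6 + (-896) * e ^ 7) * x ^ 10
    + ((4096) * e ^ 5 + (-5888) * e ^ 6 + (-512) * e ^ 7) * x ^ 11

/-- The value of the diagonal at `m = 1`, over `(x - 1) ^ 2`. -/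
def endDiag (e x : ℝ) : ℝ :=
  ((1024) + (-1152) * e + (-2096) * e ^ 2 + (3000) * e ^ 3 + (256) * e ^ 4)
    + ((512) + (448) * e + (-4184) * e ^ 2 + (4396) * e ^ 3 + (232) * e ^ 4 + (-48) * e ^ 5) * x
    + ((-1536) * e + (-4048) * e ^ 2 + (14648) * e ^ 3 + (-8524) * e ^ 4 + (-840) * e ^ 5) * x ^ 2
    + ((-14976) * e ^ 2 + (29928) * e ^ 3 + (-11434) * e ^ 4 + (-860) * e ^ 5 + (48) * e ^ 6) * x ^ 3
    + ((-12224) * e ^ 2 + (35520) * e ^ 3 + (-30212) * e ^ 4 + (7336) * e ^ 5 + (864) * e ^ 6) * x ^ 4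
    + ((-4096) * e ^ 2 + (43584) * e ^ 3 + (-62776) * e ^ 4 + (9000) * e ^ 5 + (968) * e ^ 6) * x ^ 5
    + ((36480) * e ^ 3 + (-70608) * e ^ 4 + (23564) * e ^ 5 + (-1156) * e ^ 6 + (-280) * e ^ 7) * x ^ 6
    + ((12288) * e ^ 3 + (-52896) * e ^ 4 + (52316) * e ^ 5 + (-442) * e ^ 6 + (-340) * e ^ 7) * x ^ 7
    + ((-34944) * e ^ 4 + (56440) * e ^ 5 + (-4520) * e ^ 6 + (-656) * e ^ 7) * x ^ 8
    + ((-12288) * e ^ 4 + (28960) * e ^ 5 + (-14684) * e ^ 6 + (-1352) * e ^ 7) * x ^ 9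
    + ((11264) * e ^ 5 + (-16192) * e ^ 6 + (-1408) * e ^ 7) * x ^ 10
    + ((4096) * e ^ 5 + (-5888) * e ^ 6 + (-512) * e ^ 7) * x ^ 11

/-- The cross coefficient on the edge `d = 1`. -/
def edgeLin (e x : ℝ) : ℝ :=
  ((1536) + (-1728) * e + (-4168) * e ^ 2 + (5972) * e ^ 3 + (512) * e ^ 4)
    + ((2048) * e + (-5248) * e ^ 2 + (4320) * e ^ 3 + (80) * e ^ 4 + (-96) * e ^ 5) * x
    + ((-3328) * e + (-5496) * e ^ 2 + (25828) * e ^ 3 + (-16986) * e ^ 4 + (-1596) * e ^ 5) * x ^ 2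
    + ((768) * e + (-22872) * e ^ 2 + (39228) * e ^ 3 + (-10376) * e ^ 4 + (-496) * e ^ 5 + (96) * e ^ 6) * x ^ 3
    + ((-4320) * e ^ 2 + (35376) * e ^ 3 + (-52322) * e ^ 4 + (14900) * e ^ 5 + (1632) * e ^ 6) * x ^ 4
    + ((480) * e ^ 2 + (50688) * e ^ 3 + (-82998) * e ^ 4 + (7076) * e ^ 5 + (688) * e ^ 6) * x ^ 5
    + ((19776) * e ^ 3 + (-57336) * e ^ 4 + (42786) * e ^ 5 + (-2782) * e ^ 6 + (-548) * e ^ 7) * x ^ 6
    + ((-1344) * e ^ 3 + (-44184) * e ^ 4 + (69838) * e ^ 5 + (964) * e ^ 6 + (-272) * e ^ 7) * x ^ 7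
    + ((-20160) * e ^ 4 + (38652) * e ^ 5 + (-11352) * e ^ 6 + (-1104) * e ^ 7) * x ^ 8
    + ((576) * e ^ 4 + (13508) * e ^ 5 + (-20680) * e ^ 6 + (-1792) * e ^ 7) * x ^ 9
    + ((6656) * e ^ 5 + (-9568) * e ^ 6 + (-832) * e ^ 7) * x ^ 10

/-- The square coefficient on the edge `d = 1` at `c = 1`. -/
def edgeRight (e x : ℝ) : ℝ :=
  ((512) + (-576) * e + (-2584) * e ^ 2 + (3708) * e ^ 3 + (320) * e ^ 4)
    + ((1536) * e + (-1904) * e ^ 2 + (328) * e ^ 3 + (-164) * e ^ 4 + (-72) * e ^ 5) * x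
    + ((-1792) * e + (-4008) * e ^ 2 + (16396) * e ^ 3 + (-10350) * e ^ 4 + (-948) * e ^ 5) * x ^ 2
    + ((-9616) * e ^ 2 + (13484) * e ^ 3 + (53) * e ^ 4 + (318) * e ^ 5 + (72) * e ^ 6) * x ^ 3
    + ((4832) * e ^ 2 + (11952) * e ^ 3 + (-34302) * e ^ 4 + (8812) * e ^ 5 + (960) * e ^ 6) * x ^ 4
    + ((96) * e ^ 2 + (18920) * e ^ 3 + (-27774) * e ^ 4 + (-1070) * e ^ 5 + (-204) * e ^ 6) * x ^ 5
    + ((-7488) * e ^ 3 + (-7656) * e ^ 4 + (29622) * e ^ 5 + (-1402) * e ^ 6 + (-332) * e ^ 7) * x ^ 6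
    + ((1216) * e ^ 3 + (-17584) * e ^ 4 + (22950) * e ^ 5 + (1369) * e ^ 6 + (50) * e ^ 7) * x ^ 7
    + ((5568) * e ^ 4 + (-1980) * e ^ 5 + (-9360) * e ^ 6 + (-768) * e ^ 7) * x ^ 8
    + ((-1920) * e ^ 4 + (7492) * e ^ 5 + (-6560) * e ^ 6 + (-584) * e ^ 7) * x ^ 9
    + ((-1536) * e ^ 5 + (2208) * e ^ 6 + (192) * e ^ 7) * x ^ 10
    + ((768) * e ^ 5 + (-1104) * e ^ 6 + (-96) * e ^ 7) * x ^ 11

/-- The square coefficient on the edge `d = 1` at `c = 0`. -/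
def edgeLeft (e x : ℝ) : ℝ :=
  piS e x 1 0 - (x - 1) ^ 2 * endDiag e x - (x - 1) * edgeLin e x

/-- The edge at `c = 1 / 2`. -/
def edgeHalf (e x : ℝ) : ℝ :=
  (x - 1) ^ 2 * endDiag e x + (x - 1) * edgeLin e x / 2 + (edgeLeft e x + edgeRight e x) / 8

/-- The slope of the edge at `c = 1 / 2`. -/
def edgeSlope (e x : ℝ) : ℝ :=
  -((x - 1) * edgeLin e x) - (3 * edgeLeft e x + edgeRight e x) / 4

end Vale.Agent.P219.CH.GenK.Four
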