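import Vale.Agent.P219.Bend.Jacobian

/-!
# P219: two facts on the hyperbolic functions used by the weights
-/

noncomputable section

namespace Vale.Agent.P219.CH.GenK.Four

theorem sfac_one {r : ℝ} (hr : 0 < r) :
    Bend.sfac 1 (r ^ 2 / 2) = Real.sinh r / r := by
  rw [Bend.sfac, show 2 * (1 : ℝ) ^ 2 * (r ^ 2 / 2) = r ^ 2 by ring, ← Bend.two_mul_cshd_sq r]
  field_simp

theorem tanh_pos {r : ℝ} (hr : 0 < r) : 0 < Real.tanh r := by
  rw [Real.tanh_eq_sinh_div_cosh]
  exact div_pos (Real.sinh_pos_iff.2 hr) (Real.cosh_pos r)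

end Vale.Agent.P219.CH.GenK.Four
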