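import Vale.Agent.P219.GenK.Four.Weight

/-!
# P219, dimension four against curvature at most `-b ^ 2`: the row integrand

At `r > 0` the integrand of the regularised weight is at least the one of the exact weight, up to
`O(η) |c| |d|`.
-/

noncomputable section

open Set

namespace Vale.Agent.P219.CH.GenK.Four

/-- The exact integrand times the denominator, less the constant, for absolute cosines. -/
def rowFour (e x c d : ℝ) : ℝ :=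
  (1 - d ^ 2) * (1 - e * x ^ 2) * (dP e (e * x ^ 2) + c ^ 2 * dQ e (e * x ^ 2))
    + (2 + d ^ 2) * (1 + e * x ^ 2) * (wP e (e * x ^ 2) + c ^ 2 * wQ e (e * x ^ 2))
    + (1 - e * x ^ 2) * wQ e (e * x ^ 2) * (c * d * (2 - c ^ 2 - d ^ 2))
    - 6 * x * d * (wP e (e * x ^ 2) + c ^ 2 * wQ e (e * x ^ 2))

theorem symS_eq_row (e x c d : ℝ) :
    symS e x (c + d) (c * d) = 2 * den e + rowFour e x c d + rowFour e x d c := by
  simp only [symS, rowFour]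
  ring

theorem modelH_four {ρ : ℝ} (hρ : 0 < ρ) : modelH 4 ρ = 3 / Real.tanh ρ := by
  have := (Real.sinh_pos_iff.2 hρ).ne'
  have := (Real.cosh_pos ρ).ne'
  rw [modelH, Real.tanh_eq_sinh_div_cosh]
  push_cast
  field_simp
  ring

/-- The exact value of the integrand on a ray. -/
theorem kern_eval {ρ θ η r : ℝ} (hρ : 0 < ρ) (hτ1 : Real.tanh ρ ^ 2 ≤ 16 / 25) (hθ : 0 < θ)
    (hcut : ∀ X : ℝ, -θ ^ 2 / 4 ≤ X → 0 < Bend.csh X) (hη : η ≠ 0) (hr : 0 < r) (c d : ℝ) :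
    den (Real.tanh ρ ^ 2) *
        kern 4 1 (modelH 4 ρ) (weight (Real.tanh ρ) θ η) (r ^ 2 / 2) (r * c) d =
      (1 - d ^ 2) * ((1 - Real.tanh (r / 2) ^ 2) *
          (dP (Real.tanh ρ ^ 2) (Real.tanh (r / 2) ^ 2)
            + c ^ 2 * (r ^ 2 / (r ^ 2 + η ^ 2)) * dQ (Real.tanh ρ ^ 2) (Real.tanh (r / 2) ^ 2))
        + 4 * (r ^ 2 / (r ^ 2 + η ^ 2)) * (1 - r ^ 2 / (r ^ 2 + η ^ 2)) * c ^ 2
          * (Real.tanh (r / 2) / r) * wQ (Real.tanh ρ ^ 2) (Real.tanh (r / 2) ^ 2))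
      + (2 + d ^ 2) * (1 + Real.tanh (r / 2) ^ 2) * (wP (Real.tanh ρ ^ 2) (Real.tanh (r / 2) ^ 2)
          + c ^ 2 * (r ^ 2 / (r ^ 2 + η ^ 2)) * wQ (Real.tanh ρ ^ 2) (Real.tanh (r / 2) ^ 2))
      + 2 * (r ^ 2 / (r ^ 2 + η ^ 2)) * (1 - Real.tanh (r / 2) ^ 2) * (|c| * |d|)
          * (Real.sqrt (1 - d ^ 2) * Real.sqrt (1 - c ^ 2))
          * wQ (Real.tanh ρ ^ 2) (Real.tanh (r / 2) ^ 2)
      - 6 * (Real.tanh (r / 2) / Real.tanh ρ) * max d 0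
          * (wP (Real.tanh ρ ^ 2) (Real.tanh (r / 2) ^ 2)
            + c ^ 2 * (r ^ 2 / (r ^ 2 + η ^ 2)) * wQ (Real.tanh ρ ^ 2) (Real.tanh (r / 2) ^ 2)) := by
  obtain ⟨wa, wb⟩ := partials (τ := Real.tanh ρ) hθ hcut hη hr (r * c)
  have hw := weight_ray (τ := Real.tanh ρ) hθ.ne' hη hr (r * c)
  obtain ⟨T, hT⟩ : ∃ T, T = Real.tanh (r / 2) := ⟨_, rfl⟩
  obtain ⟨τ, hτ⟩ : ∃ τ, τ = Real.tanh ρ := ⟨_, rfl⟩
  have hτ0 : 0 < τ := hτ ▸ tanh_pos hρ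
  have hT0 : 0 < T := hT ▸ tanh_pos (by linarith)
  have hT1 : T ^ 2 < 1 := pow_lt_one₀ hT0.le (hT ▸ tanh_lt_one' _) two_ne_zero
  rw [← hτ] at hτ1
  have hden : 0 < den (τ ^ 2) := den_pos (sq_nonneg τ) hτ1
  have hW : 1 - T ^ 2 ≠ 0 := (sub_pos.2 hT1).ne'
  have hR : 0 < r ^ 2 + η ^ 2 := by positivity
  have hsr : Real.sinh r = 2 * T / (1 - T ^ 2) := hT ▸ sinh_eq
  have e2 : Real.sqrt (2 * (r ^ 2 / 2) - (r * c) ^ 2) = r * Real.sqrt (1 - c ^ 2) := by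
    rw [show 2 * (r ^ 2 / 2) - (r * c) ^ 2 = r ^ 2 * (1 - c ^ 2) by ring,
      Real.sqrt_mul (sq_nonneg r), Real.sqrt_sq hr.le]
  have e3 : Real.sqrt (2 * (r ^ 2 / 2)) = r := by
    rw [show 2 * (r ^ 2 / 2) = r ^ 2 by ring, Real.sqrt_sq hr.le]
  rw [← hT, ← hτ] at wa wb hw ⊢
  obtain ⟨Q, hQ⟩ : ∃ Q, Q = wQ (τ ^ 2) (T ^ 2) := ⟨_, rfl⟩
  have hQ0 : 0 ≤ -Q := by
    have h := wQ_nonneg (pow_pos hτ0 2) hτ1 (div_nonneg hT0.le hτ0.le)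
      (show τ ^ 2 * (T / τ) ^ 2 ≤ 1 by rw [div_pow, mul_div_cancel₀ _ (pow_pos hτ0 2).ne']; linarith)
    rw [div_pow, mul_div_cancel₀ _ (pow_pos hτ0 2).ne'] at h
    rw [hQ]; exact h
  rw [← hQ] at wa wb hw ⊢
  have e4 : |Dir.wb (weight τ θ η) (r ^ 2 / 2, r * c)| =
      4 * T * |c| / (r ^ 2 + η ^ 2) * -Q / den (τ ^ 2) := by
    rw [wb, show 4 * T * (r * c) / (r ^ 2 + η ^ 2) * Q / (r * den (τ ^ 2)) =
      -(4 * T / (r ^ 2 + η ^ 2) * -Q / den (τ ^ 2)) * c by field_simp,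
      abs_mul, abs_neg, abs_of_nonneg (by positivity)]
    ring
  have ha : Dir.wa (weight τ θ η) (r ^ 2 / 2, r * c) =
      (Dir.wa (weight τ θ η) (r ^ 2 / 2, r * c) * r) / r := by field_simp
  simp only [kern, e2, e3, e4, hw, cfac_one hr, sfac_one hr, hsr, modelH_four hρ, ← hT, ← hτ]
  rw [ha, wa, wb]
  push_cast
  field_simp
  ring

theorem neg_wQ_le {e y : ℝ} (he : 0 ≤ e) (he1 : e ≤ 1) (hy : 0 ≤ y) (hy1 : y ≤ 1) :
    -wQ e y ≤ 2000 := by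
  have h2 : e ^ 2 ≤ 1 := pow_le_one₀ he he1
  have h3 : e ^ 3 ≤ 1 := pow_le_one₀ he he1
  have h4 : e ^ 4 ≤ 1 := pow_le_one₀ he he1
  have h5 : e ^ 5 ≤ 1 := pow_le_one₀ he he1
  have hy2 : y ^ 2 ≤ 1 := pow_le_one₀ hy hy1
  have := mul_le_one₀ h2 hy hy1
  have := mul_le_one₀ h3 hy hy1
  have := mul_le_one₀ h4 hy hy1
  have := mul_le_one₀ h5 hy hy1
  have := mul_le_one₀ h2 (sq_nonneg y) hy2
  have := mul_nonneg (pow_nonneg he 2) hy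
  have := mul_nonneg (pow_nonneg he 2) (sq_nonneg y)
  have := mul_nonneg (pow_nonneg he 3) (sq_nonneg y)
  have := mul_nonneg (pow_nonneg he 4) (sq_nonneg y)
  have := pow_nonneg he 2
  have := pow_nonneg he 3
  have := pow_nonneg he 4
  have := pow_nonneg he 5
  unfold wQ
  linarith

/-- The regularised integrand dominates the exact one. -/
theorem kern_ge {ρ θ η r c d : ℝ} (hρ : 0 < ρ) (hτ1 : Real.tanh ρ ^ 2 ≤ 16 / 25) (hθ : 0 < θ)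
    (hcut : ∀ X : ℝ, -θ ^ 2 / 4 ≤ X → 0 < Bend.csh X) (hη : 0 < η) (hr : 0 < r) (hc : |c| ≤ 1)
    (hd : |d| ≤ 1) :
    rowFour (Real.tanh ρ ^ 2) (Real.tanh (r / 2) / Real.tanh ρ) |c| |d|
        - 3000 * η / Real.tanh ρ * (|c| * |d|) ≤
      den (Real.tanh ρ ^ 2) *
        kern 4 1 (modelH 4 ρ) (weight (Real.tanh ρ) θ η) (r ^ 2 / 2) (r * c) d := by
  rw [kern_eval hρ hτ1 hθ hcut hη.ne' hr c d]
  obtain ⟨τ, hτ⟩ : ∃ τ, τ = Real.tanh ρ := ⟨_, rfl⟩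
  obtain ⟨T, hT⟩ : ∃ T, T = Real.tanh (r / 2) := ⟨_, rfl⟩
  have hτ0 : 0 < τ := hτ ▸ tanh_pos hρ
  have hT0 : 0 < T := hT ▸ tanh_pos (by linarith)
  have hT1 : T ^ 2 < 1 := pow_lt_one₀ hT0.le (hT ▸ tanh_lt_one' _) two_ne_zero
  have hTr : T ≤ r / 2 := by
    have h1 : r / 2 = Real.artanh T := by rw [hT, Real.artanh_tanh]
    have h2 := self_le_lFun (show (0 : ℝ) < 1 by norm_num) hT0.le
      (show 1 * T < 1 by rw [one_mul, hT]; exact tanh_lt_one' _)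
    rw [lFun, one_mul, div_one] at h2
    linarith
  rw [← hτ] at hτ1
  rw [← hT, ← hτ]
  obtain ⟨x, hx⟩ : ∃ x, x = T / τ := ⟨_, rfl⟩
  have hx0 : 0 ≤ x := hx ▸ div_nonneg hT0.le hτ0.le
  have hy : τ ^ 2 * x ^ 2 = T ^ 2 := by
    rw [hx, div_pow, mul_div_cancel₀ _ (pow_pos hτ0 2).ne']
  have he := pow_pos hτ0 2
  have hQ0 := wQ_nonneg he hτ1 hx0 (hy.trans_le hT1.le)
  have hG := gain_nonneg he hτ1 hx0 (hy.trans_le hT1.le)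
  have hS := wSum_nonneg he hτ1 hx0 (hy.trans_le hT1.le)
  have hQb := neg_wQ_le he.le (show τ ^ 2 ≤ 1 by linarith) (sq_nonneg T) hT1.le
  rw [← hx]
  unfold rowFour
  rw [hy] at hQ0 hG hS ⊢
  obtain ⟨Q, hQ⟩ : ∃ Q, Q = wQ (τ ^ 2) (T ^ 2) := ⟨_, rfl⟩
  obtain ⟨P, hP⟩ : ∃ P, P = wP (τ ^ 2) (T ^ 2) := ⟨_, rfl⟩
  obtain ⟨A, hA⟩ : ∃ A, A = dP (τ ^ 2) (T ^ 2) := ⟨_, rfl⟩
  obtain ⟨B, hB⟩ : ∃ B, B = dQ (τ ^ 2) (T ^ 2) := ⟨_, rfl⟩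
  rw [← hQ] at hQ0 hG hS hQb ⊢
  rw [← hP] at hS ⊢
  rw [← hB] at hG ⊢
  rw [← hA]
  obtain ⟨m, hm⟩ : ∃ m, m = r ^ 2 / (r ^ 2 + η ^ 2) := ⟨_, rfl⟩
  have hR : 0 < r ^ 2 + η ^ 2 := by positivity
  have hm0 : 0 ≤ m := hm ▸ div_nonneg (sq_nonneg r) hR.le
  have hm1 : m ≤ 1 := hm ▸ (div_le_one hR).2 (by linarith [sq_nonneg η])
  rw [← hm]
  obtain ⟨k, hk⟩ : ∃ k, k = T / r := ⟨_, rfl⟩
  have hk0 : 0 ≤ k := hk ▸ div_nonneg hT0.le hr.le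
  have hk1 : k ≤ 1 / 2 := by rw [hk, div_le_iff₀ hr]; linarith
  rw [← hk]
  have hc2 : |c| ^ 2 = c ^ 2 := sq_abs c
  have hd2 : |d| ^ 2 = d ^ 2 := sq_abs d
  have hc1 : c ^ 2 ≤ 1 := by rw [← hc2]; exact pow_le_one₀ (abs_nonneg c) hc
  have hd1 : d ^ 2 ≤ 1 := by rw [← hd2]; exact pow_le_one₀ (abs_nonneg d) hd
  have hw : 0 ≤ P + c ^ 2 * m * Q := by
    have h0 := mul_nonneg (sub_nonneg.2 (mul_le_one₀ hc1 hm0 hm1)) hQ0
    have := mul_nonneg (pow_pos hτ0 2).le (show 0 ≤ 1 - τ ^ 2 by linarith)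
    linarith
  have hsq : Real.sqrt (1 - d ^ 2) * Real.sqrt (1 - c ^ 2) ≤ (2 - c ^ 2 - d ^ 2) / 2 := by
    linarith [sq_nonneg (Real.sqrt (1 - d ^ 2) - Real.sqrt (1 - c ^ 2)),
      Real.sq_sqrt (sub_nonneg.2 hd1), Real.sq_sqrt (sub_nonneg.2 hc1)]
  have hv : 0 ≤ |c| * |d| := by positivity
  have hW : 0 ≤ 1 - T ^ 2 := by linarith
  have hx2 : x * (1 - m) ≤ η / (4 * τ) := by
    have h1 : r * (1 - m) ≤ η / 2 := by
      rw [hm, one_sub_div hR.ne', add_sub_cancel_left, ← mul_div_assoc, div_le_iff₀ hR]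
      nlinarith [mul_nonneg hη.le (sq_nonneg (r - η))]
    have h2 := mul_le_mul_of_nonneg_right hTr (sub_nonneg.2 hm1)
    rw [hx, div_mul_eq_mul_div, div_le_div_iff₀ hτ0 (by positivity)]
    have h3 := mul_le_mul_of_nonneg_left (h2.trans (show r / 2 * (1 - m) ≤ η / 4 by linarith)) hτ0.le
    linarith
  have hcc : c ^ 2 ≤ |c| := by rw [← hc2]; exact pow_le_of_le_one (abs_nonneg c) hc two_ne_zero
  have t1 : 0 ≤ (1 - m) * c ^ 2 * ((1 - d ^ 2) * (-(1 - T ^ 2) * B - 2 * T ^ 2 * Q)) :=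
    mul_nonneg (mul_nonneg (sub_nonneg.2 hm1) (sq_nonneg c))
      (mul_nonneg (sub_nonneg.2 hd1) hG)
  have t2 : 0 ≤ (1 - m) * c ^ 2 * -Q *
      (3 * d ^ 2 * (1 + T ^ 2) + 2 * (1 - d ^ 2) * (1 - 2 * (m * k))) := by
    have : 0 ≤ 1 - m := sub_nonneg.2 hm1
    have : 0 ≤ 1 - d ^ 2 := sub_nonneg.2 hd1
    have : 0 ≤ 1 - 2 * (m * k) := by
      have := mul_le_mul hm1 hk1 hk0 zero_le_one
      linarith
    positivity
  have t3 : 0 ≤ 2 * (1 - T ^ 2) * (|c| * |d|) * -Q *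
      ((2 - c ^ 2 - d ^ 2) / 2 - m * (Real.sqrt (1 - d ^ 2) * Real.sqrt (1 - c ^ 2))) := by
    refine mul_nonneg (by positivity) (sub_nonneg.2 (le_trans ?_ hsq))
    exact mul_le_of_le_one_left (by positivity) hm1
  have t4 : 0 ≤ 6 * x * (|d| - max d 0) * (P + c ^ 2 * m * Q) :=
    mul_nonneg (mul_nonneg (by positivity)
      (sub_nonneg.2 (max_le (le_abs_self d) (abs_nonneg d)))) hw
  have t5 : 6 * x * |d| * ((1 - m) * c ^ 2 * -Q) ≤ 3000 * η / τ * (|c| * |d|) := by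
    calc 6 * x * |d| * ((1 - m) * c ^ 2 * -Q) = 6 * (x * (1 - m)) * -Q * (c ^ 2 * |d|) := by ring
      _ ≤ 6 * (η / (4 * τ)) * 2000 * (|c| * |d|) := by
        gcongr
      _ = 3000 * η / τ * (|c| * |d|) := by field_simp; ring
  rw [hc2, hd2]
  linarith

end Vale.Agent.P219.CH.GenK.Four
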