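import Vale.Agent.P219.GenK.Four.Cert

/-!
# P219, dimension four against curvature at most `-b ^ 2`: the inequality along a line

Three tangent bounds reduce the inequality with `artanh` and the poles `1 / (1 - e t ^ 2)` to `piS`.
-/

noncomputable section

open Set

namespace Vale.Agent.P219.CH.GenK.Four

/-- The length variable, as a function of `t = tanh (r / 2) / τ`. -/
def lFun (τ t : ℝ) : ℝ := Real.artanh (τ * t) / τ

theorem hasDerivAt_artanh {z : ℝ} (h : z ∈ Ioo (-1 : ℝ) 1) :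
    HasDerivAt Real.artanh (1 / (1 - z ^ 2)) z := by
  have h1 : 0 < 1 + z := by linarith [h.1]
  have h2 : 0 < 1 - z := by linarith [h.2]
  have hd : HasDerivAt (fun y : ℝ => 1 / 2 * Real.log ((1 + y) / (1 - y))) _ z :=
    ((((hasDerivAt_id z).const_add 1).div ((hasDerivAt_id z).const_sub 1) h2.ne').log
      (div_pos h1 h2).ne').const_mul (1 / 2)
  refine (hd.congr_deriv ?_).congr_of_eventuallyEq ?_
  · simp only [id_eq, Pi.div_apply]
    have h3 : (1 : ℝ) - z ^ 2 ≠ 0 := by nlinarith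
    field_simp
    ring
  · filter_upwards [Ioo_mem_nhds h.1 h.2] with y hy
    exact Real.artanh_eq_half_log ⟨hy.1.le, hy.2.le⟩

theorem hasDerivAt_lFun {τ t : ℝ} (hτ : 0 < τ) (ht : τ * t ∈ Ioo (-1 : ℝ) 1) :
    HasDerivAt (lFun τ) (1 / (1 - τ ^ 2 * t ^ 2)) t := by
  have h := ((hasDerivAt_artanh ht).comp t ((hasDerivAt_id t).const_mul τ)).div_const τ
  refine (h.congr_deriv ?_).congr_of_eventuallyEq (Filter.Eventually.of_forall fun y => rfl)
  rw [mul_one, mul_pow, mul_div_assoc, div_self hτ.ne', mul_one]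

theorem y_lt_one {τ x : ℝ} (hτ : 0 ≤ τ) (hx : 0 ≤ x) (h : τ * x < 1) : τ ^ 2 * x ^ 2 < 1 := by
  rw [← mul_pow]
  exact pow_lt_one₀ (mul_nonneg hτ hx) h two_ne_zero

/-- The second order lower bound of the length. -/
theorem lFun_lower {τ t x : ℝ} (hτ : 0 < τ) (ht : 0 ≤ t) (htτ : τ * t < 1) (hx : 0 ≤ x)
    (hxτ : τ * x < 1) :
    lFun τ x + (t - x) / (1 - τ ^ 2 * x ^ 2)
        + 2 / 3 * τ ^ 2 * x * (t - x) ^ 2 / (1 - τ ^ 2 * x ^ 2) ≤ lFun τ t := by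
  obtain ⟨Φ, hΦ⟩ : ∃ Φ : ℝ → ℝ, Φ = fun z => lFun τ t - lFun τ z
      - ((t - z) + 2 / 3 * τ ^ 2 * z * (t - z) ^ 2) / (1 - τ ^ 2 * z ^ 2) := ⟨_, rfl⟩
  have hd : ∀ z, 0 ≤ z → τ * z < 1 → HasDerivAt Φ
      (-(2 / 3) * τ ^ 2 * (t - z) * (t * (1 + τ ^ 2 * z ^ 2) + z * (τ ^ 2 * z ^ 2))
        / (1 - τ ^ 2 * z ^ 2) ^ 2) z := by
    intro z hz hzτ
    have hW : 1 - τ ^ 2 * z ^ 2 ≠ 0 := (sub_pos.2 (y_lt_one hτ.le hz hzτ)).ne'
    have h1 := hasDerivAt_lFun hτ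
      (show τ * z ∈ Ioo (-1 : ℝ) 1 from ⟨by linarith [mul_nonneg hτ.le hz], hzτ⟩)
    have h2 : HasDerivAt (fun z => ((t - z) + 2 / 3 * τ ^ 2 * z * (t - z) ^ 2) /
        (1 - τ ^ 2 * z ^ 2)) _ z := ((((hasDerivAt_id z).const_sub t).add
          (((hasDerivAt_id z).const_mul (2 / 3 * τ ^ 2)).mul
            (((hasDerivAt_id z).const_sub t).pow 2)))).div
          (((hasDerivAt_pow 2 z).const_mul (τ ^ 2)).const_sub 1) hW
    rw [hΦ]
    refine ((h1.const_sub (lFun τ t)).sub h2).congr_deriv ?_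
    simp only [Pi.add_apply, Pi.mul_apply, Pi.pow_apply, id_eq]
    push_cast
    field_simp
    ring
  have ht0 : Φ t = 0 := by rw [hΦ]; simp
  have key : 0 ≤ Φ x := by
    rcases le_total t x with h | h
    · have hm : MonotoneOn Φ (Icc t x) := by
        refine monotoneOn_of_hasDerivWithinAt_nonneg (f' := fun z => -(2 / 3) * τ ^ 2 * (t - z) *
            (t * (1 + τ ^ 2 * z ^ 2) + z * (τ ^ 2 * z ^ 2)) / (1 - τ ^ 2 * z ^ 2) ^ 2) (convex_Icc t x)
          (fun z hz => (hd z (ht.trans hz.1)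
            ((mul_le_mul_of_nonneg_left hz.2 hτ.le).trans_lt hxτ)).continuousAt.continuousWithinAt)
          (fun z hz => ?_) fun z hz => ?_
        · rw [interior_Icc] at hz
          exact (hd z (ht.trans hz.1.le)
            ((mul_le_mul_of_nonneg_left hz.2.le hτ.le).trans_lt hxτ)).hasDerivWithinAt
        · rw [interior_Icc] at hz
          have hz0 : 0 ≤ z := ht.trans hz.1.le
          refine div_nonneg ?_ (sq_nonneg _)
          have : 0 ≤ z - t := sub_nonneg.2 hz.1.le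
          rw [show -(2 / 3) * τ ^ 2 * (t - z) * (t * (1 + τ ^ 2 * z ^ 2) + z * (τ ^ 2 * z ^ 2)) =
            2 / 3 * τ ^ 2 * (z - t) * (t * (1 + τ ^ 2 * z ^ 2) + z * (τ ^ 2 * z ^ 2)) by ring]
          positivity
      exact ht0 ▸ hm (left_mem_Icc.2 h) (right_mem_Icc.2 h) h
    · have hm : AntitoneOn Φ (Icc x t) := by
        refine antitoneOn_of_hasDerivWithinAt_nonpos (f' := fun z => -(2 / 3) * τ ^ 2 * (t - z) *
            (t * (1 + τ ^ 2 * z ^ 2) + z * (τ ^ 2 * z ^ 2)) / (1 - τ ^ 2 * z ^ 2) ^ 2) (convex_Icc x t)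
          (fun z hz => (hd z (hx.trans hz.1)
            ((mul_le_mul_of_nonneg_left hz.2 hτ.le).trans_lt htτ)).continuousAt.continuousWithinAt)
          (fun z hz => ?_) fun z hz => ?_
        · rw [interior_Icc] at hz
          exact (hd z (hx.trans hz.1.le)
            ((mul_le_mul_of_nonneg_left hz.2.le hτ.le).trans_lt htτ)).hasDerivWithinAt
        · rw [interior_Icc] at hz
          have hz0 : 0 ≤ z := hx.trans hz.1.le
          have : 0 ≤ t - z := sub_nonneg.2 hz.2.le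
          refine div_nonpos_of_nonpos_of_nonneg ?_ (sq_nonneg _)
          rw [neg_mul, neg_mul, neg_mul, neg_nonpos]
          positivity
      exact ht0 ▸ hm (left_mem_Icc.2 h) (right_mem_Icc.2 h) h
  rw [hΦ] at key
  simp only at key
  rw [add_div] at key
  linarith

/-- The length is at least its variable. -/
theorem self_le_lFun {τ t : ℝ} (hτ : 0 < τ) (ht : 0 ≤ t) (htτ : τ * t < 1) : t ≤ lFun τ t := by
  have h := lFun_lower hτ ht htτ le_rfl (show τ * 0 < 1 by simp)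
  simpa [lFun] using h

/-- The tangent bound of the pole. -/
theorem pole_lower {e t x : ℝ} (he : 0 ≤ e) (ht : 0 ≤ t) (hte : e * t ^ 2 < 1) (hx : 0 ≤ x) :
    x * (1 - e * x ^ 2) + (1 + e * x ^ 2) * (t - x) + 2 * e * x * (t - x) ^ 2 ≤
      (1 - e * x ^ 2) ^ 2 * (t / (1 - e * t ^ 2)) := by
  have hT : 0 < 1 - e * t ^ 2 := sub_pos.2 hte
  rw [← mul_div_assoc, le_div_iff₀ hT]
  have h : 0 ≤ e * (t - x) ^ 2 * (t * (1 + e * x ^ 2) + 2 * e * x * t ^ 2) := by positivity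
  linarith

theorem res_nonpos {e : ℝ} (he : 0 ≤ e) (he1 : e ≤ 1) : res e ≤ 0 := by
  have h : res e = -(4 * e ^ 2 * (1 - e) * (8 + 3 * e)) := by
    simp only [res, g0, g1, g2, g3]; ring
  rw [h, neg_nonpos]
  have : 0 ≤ 1 - e := sub_nonneg.2 he1
  positivity

theorem q1c_nonpos {e : ℝ} (he : 0 ≤ e) (he1 : e ≤ 16 / 25) : q1c e ≤ 0 := by
  have h := mul_le_mul he1 he1 he (by norm_num)
  have h2 : q1c e = e * (-392 + 568 * e + 64 * e ^ 2) := by simp only [q1c, g2, g3]; ring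
  rw [h2]
  exact mul_nonpos_of_nonneg_of_nonpos he (by linarith)

theorem q2c_nonneg {e : ℝ} (he : 0 ≤ e) (he1 : e ≤ 16 / 25) : 0 ≤ q2c e := by
  have h := mul_le_mul he1 he1 he (by norm_num)
  simp only [q2c, g3]
  linarith

/-- The quadratic upper bound of the polynomial part. -/
theorem poly_upper {e t x : ℝ} (he : 0 ≤ e) (he1 : e ≤ 16 / 25) (ht : 0 ≤ t) (ht1 : t ≤ 1)
    (hx : 0 ≤ x) :
    q0c e * t + q1c e * e * t ^ 3 + q2c e * e ^ 2 * t ^ 5 ≤
      (q0c e * x + q1c e * e * x ^ 3 + q2c e * e ^ 2 * x ^ 5)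
        + (q0c e + 3 * q1c e * e * x ^ 2 + 5 * q2c e * e ^ 2 * x ^ 4) * (t - x)
        + curv e x * (t - x) ^ 2 := by
  have h0 : 0 ≤ -q1c e := neg_nonneg.2 (q1c_nonpos he he1)
  have h2 := q2c_nonneg he he1
  have hb : 0 ≤ (1 - t ^ 3) + 2 * x * (1 - t ^ 2) + 3 * x ^ 2 * (1 - t) := by
    have := pow_le_one₀ ht ht1 (n := 3)
    have := pow_le_one₀ ht ht1 (n := 2)
    have : 0 ≤ 1 - t ^ 3 := by linarith
    have : 0 ≤ 1 - t ^ 2 := by linarith
    have : 0 ≤ 1 - t := sub_nonneg.2 ht1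
    positivity
  have h3 : 0 ≤ (t - x) ^ 2 * (q2c e * e ^ 2 *
      ((1 - t ^ 3) + 2 * x * (1 - t ^ 2) + 3 * x ^ 2 * (1 - t)) + -q1c e * e * t) := by positivity
  unfold curv
  linarith

/-- The marginal coefficient without the length. -/
def margRat (e t : ℝ) : ℝ := t ^ 2 * gPoly e (e * t ^ 2) / (1 - e * t ^ 2)

theorem margRat_eq {e t : ℝ} (h : e * t ^ 2 ≠ 1) :
    margRat e t = t * (q0c e * t + q1c e * e * t ^ 3 + q2c e * e ^ 2 * t ^ 5)
      + res e * t * (t / (1 - e * t ^ 2)) := by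
  have : 1 - e * t ^ 2 ≠ 0 := sub_ne_zero.2 (Ne.symm h)
  have key : t ^ 2 * gPoly e (e * t ^ 2) =
      t * (q0c e * t + q1c e * e * t ^ 3 + q2c e * e ^ 2 * t ^ 5) * (1 - e * t ^ 2) +
        res e * t * t := by
    simp only [gPoly, q0c, q1c, q2c, res]
    ring
  rw [margRat, key, add_div, mul_div_cancel_right₀ _ this, mul_div_assoc (res e * t)]

/-- The inequality at `τ ^ 2 ≤ 16 / 25`. -/
theorem line {τ x c d : ℝ} (hτ : 0 < τ) (hτ1 : τ ^ 2 ≤ 16 / 25) (hx : 0 ≤ x) (hxτ : τ * x < 1)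
    (hc : 0 ≤ c) (hc1 : c ≤ 1) (hd : 0 ≤ d) (hd1 : d ≤ 1) :
    (1 - τ ^ 2 * x ^ 2) ^ 3 * (d * margRat (τ ^ 2) c + c * margRat (τ ^ 2) d
        - 3 * g0 (τ ^ 2) * (c * d) * (lFun τ c + lFun τ d - 2 * lFun τ x)) ≤
      x ^ 3 * symS (τ ^ 2) x (c + d) (c * d) := by
  obtain ⟨e, he⟩ : ∃ e, e = τ ^ 2 := ⟨_, rfl⟩
  have he0 : 0 < e := he ▸ pow_pos hτ 2
  have hτ2 : τ < 1 := (pow_lt_one_iff_of_nonneg hτ.le two_ne_zero).1 (by linarith)
  have hcτ : τ * c < 1 := (mul_le_of_le_one_right hτ.le hc1).trans_lt hτ2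
  have hdτ : τ * d < 1 := (mul_le_of_le_one_right hτ.le hd1).trans_lt hτ2
  have hy := y_lt_one hτ.le hx hxτ
  have hyc := y_lt_one hτ.le hc hcτ
  have hyd := y_lt_one hτ.le hd hdτ
  rw [← he] at hy hyc hyd hτ1 ⊢
  have hW : 0 < 1 - e * x ^ 2 := sub_pos.2 hy
  have lb : ∀ t, 0 ≤ t → τ * t < 1 →
      (1 - e * x ^ 2) ^ 2 * (t - x + 2 / 3 * e * x * (t - x) ^ 2) ≤
        (1 - e * x ^ 2) ^ 3 * (lFun τ t - lFun τ x) := by
    intro t ht htt
    have h := lFun_lower hτ ht htt hx hxτ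
    rw [← he] at h
    have h' : (t - x + 2 / 3 * e * x * (t - x) ^ 2) / (1 - e * x ^ 2) ≤ lFun τ t - lFun τ x := by
      rw [add_div]; linarith
    rw [div_le_iff₀ hW] at h'
    calc _ ≤ (1 - e * x ^ 2) ^ 2 * ((lFun τ t - lFun τ x) * (1 - e * x ^ 2)) :=
          mul_le_mul_of_nonneg_left h' (sq_nonneg _)
      _ = _ := by ring
  have hq : 0 ≤ c * d := mul_nonneg hc hd
  have hg0 : 0 ≤ g0 e := by
    have h2 := mul_le_mul hτ1 hτ1 he0.le (by norm_num)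
    have := pow_nonneg he0.le 3
    unfold g0
    linarith
  have hres : 0 ≤ -res e := neg_nonneg.2 (res_nonpos he0.le (by linarith))
  have hL := mul_le_mul_of_nonneg_left (add_le_add (lb c hc hcτ) (lb d hd hdτ))
    (show 0 ≤ 3 * g0 e * (c * d) by positivity)
  have hP := mul_le_mul_of_nonneg_left (add_le_add (pole_lower he0.le hc hyc hx)
    (pole_lower he0.le hd hyd hx)) (show 0 ≤ -res e * (c * d) * (1 - e * x ^ 2) by positivity)
  have hR := mul_le_mul_of_nonneg_left (add_le_add (poly_upper he0.le hτ1 hc hc1 hx)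
    (poly_upper he0.le hτ1 hd hd1 hx)) (show 0 ≤ (1 - e * x ^ 2) ^ 3 * (c * d) by positivity)
  have hK : 0 ≤ 2 * (1 - e * x ^ 2) ^ 3 * curv e x * (c * d - x ^ 2) ^ 2 := by
    have := curv_nonneg he0 hτ1 hx hy.le
    positivity
  have hS := piS_nonneg he0 hτ1 hx hy.le hc hc1 hd hd1
  rw [margRat_eq hyc.ne, margRat_eq hyd.ne]
  simp only [piS] at hS
  obtain ⟨S, hSdef⟩ : ∃ S, S = symS e x (c + d) (c * d) := ⟨_, rfl⟩
  rw [← hSdef] at hS ⊢
  linarith

end Vale.Agent.P219.CH.GenK.Four
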