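import Vale.Agent.P219.GenK.Four.Value
import Vale.Agent.P219.GenK.Volume

/-!
# P219, dimension four against curvature at most `-b ^ 2`: the certificate up to `log 3`
-/

noncomputable section

open Set

namespace Vale.Agent.P219.CH.GenK.Four

/-- The certificate against every ball of radius at most `log 3`. -/
theorem cert_four : Cert 4 (Real.log 3) := fun ρ hρ => by
  have hτ1 := tanh_sq_le hρ.1.le hρ.2
  exact ⟨aFour ρ, betaFour ρ,
    { beta_nonneg := betaFour_nonneg hτ1
      measurable_a := measurable_aFour ρ
      a_nonpos := fun c hc => aFour_nonpos hρ.1 hτ1 hc.1 hc.2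
      a_bounded := exists_bound_aFour hρ.1
      value := value_four hρ.1 hτ1
      weight := weight_cert hρ.1 hτ1 }⟩

/-- The sharp inequality in dimension four against the space form up to the model radius
`log 3 / b`. -/
theorem sharpBend_four : SharpBend 4 (Real.log 3) :=
  sharpBend_of_cert 4 (by norm_num) (Real.log_pos (by norm_num)) cert_four

end Vale.Agent.P219.CH.GenK.Four
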