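import Vale.Agent.P219.GenK.Four.Kern

/-!
# P219, dimension four against curvature at most `-b ^ 2`: the certificate clauses of the weight
-/

noncomputable section

open Set

namespace Vale.Agent.P219.CH.GenK.Four

theorem betaFour_nonneg {ρ : ℝ} (hτ1 : Real.tanh ρ ^ 2 ≤ 16 / 25) : 0 ≤ betaFour ρ := by
  unfold betaFour
  exact div_nonneg (mul_nonneg (sq_nonneg _) (mul_nonneg (by norm_num)
    (g0_nonneg (sq_nonneg _) hτ1))) (den_pos (sq_nonneg _) hτ1).le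

theorem aFour_eq (ρ t : ℝ) :
    aFour ρ t = (2 * Real.tanh ρ) ^ 3 / den (Real.tanh ρ ^ 2) *
      (margRat (Real.tanh ρ ^ 2) t - 3 * g0 (Real.tanh ρ ^ 2) * t * lFun (Real.tanh ρ) t) := by
  rw [aFour, margRat, lFun, mul_div_assoc _ (Real.artanh _)]

theorem tanh_sq_le {ρ : ℝ} (hρ : 0 ≤ ρ) (h : ρ ≤ Real.log 3) : Real.tanh ρ ^ 2 ≤ 16 / 25 := by
  have h1 : Real.exp ρ ≤ 3 := by
    rw [← Real.exp_log (show (0 : ℝ) < 3 by norm_num)]; exact Real.exp_le_exp.2 h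
  have h2 : Real.exp (-ρ) = (Real.exp ρ)⁻¹ := Real.exp_neg ρ
  have h0 : 1 ≤ Real.exp ρ := Real.one_le_exp hρ
  have h3 : Real.tanh ρ ≤ 4 / 5 := by
    rw [Real.tanh_eq_sinh_div_cosh, Real.sinh_eq, Real.cosh_eq, h2,
      div_div_div_cancel_right₀ two_ne_zero, div_le_iff₀ (by positivity)]
    have h4 : (Real.exp ρ)⁻¹ * Real.exp ρ = 1 := inv_mul_cancel₀ (Real.exp_pos ρ).ne'
    nlinarith [mul_le_mul h1 h1 (Real.exp_pos ρ).le (by norm_num)]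
  have h4 : 0 ≤ Real.tanh ρ := by
    rw [Real.tanh_eq_sinh_div_cosh]
    exact div_nonneg (Real.sinh_nonneg_iff.2 hρ) (Real.cosh_pos ρ).le
  calc Real.tanh ρ ^ 2 ≤ (4 / 5 : ℝ) ^ 2 := pow_le_pow_left₀ h4 h3 2
    _ = _ := by norm_num

theorem aFour_nonpos {ρ t : ℝ} (hρ : 0 < ρ) (hτ1 : Real.tanh ρ ^ 2 ≤ 16 / 25) (ht : 0 ≤ t)
    (ht1 : t ≤ 1) : aFour ρ t ≤ 0 := by
  rw [aFour_eq]
  obtain ⟨τ, hτ⟩ : ∃ τ, τ = Real.tanh ρ := ⟨_, rfl⟩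
  have hτ0 : 0 < τ := hτ ▸ tanh_pos hρ
  rw [← hτ] at hτ1 ⊢
  have hτ2 : τ < 1 := hτ ▸ tanh_lt_one' ρ
  have htτ : τ * t < 1 := (mul_le_of_le_one_right hτ0.le ht1).trans_lt hτ2
  have hu : τ ^ 2 * t ^ 2 ≤ 16 / 25 :=
    (mul_le_of_le_one_right (sq_nonneg τ) (pow_le_one₀ ht ht1)).trans hτ1
  have hg := margNeg_nonneg (sq_nonneg τ) hτ1
    (show 0 ≤ τ ^ 2 * t ^ 2 by positivity) hu
  have hl := self_le_lFun hτ0 ht htτ
  have h1 : margRat (τ ^ 2) t ≤ t ^ 2 * (3 * g0 (τ ^ 2)) := by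
    rw [margRat, div_le_iff₀ (by linarith)]
    linarith [mul_nonneg (sq_nonneg t) hg]
  have h2 := mul_le_mul_of_nonneg_left hl
    (show 0 ≤ 3 * g0 (τ ^ 2) * t from
      mul_nonneg (mul_nonneg (by norm_num) (g0_nonneg (sq_nonneg τ) hτ1)) ht)
  exact mul_nonpos_of_nonneg_of_nonpos
    (div_nonneg (pow_nonneg (by positivity) 3) (den_pos (sq_nonneg τ) hτ1).le) (by linarith)

/-- Twice the symmetrised integrand is at least the exact one, up to `O(η)`. -/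
theorem sym_ge {ρ θ η r c d : ℝ} (hρ : 0 < ρ) (hτ1 : Real.tanh ρ ^ 2 ≤ 16 / 25) (hθ : 0 < θ)
    (hcut : ∀ X : ℝ, -θ ^ 2 / 4 ≤ X → 0 < Bend.csh X) (hη : 0 < η) (hr : 0 < r) (hc : |c| ≤ 1)
    (hd : |d| ≤ 1) :
    symS (Real.tanh ρ ^ 2) (Real.tanh (r / 2) / Real.tanh ρ) (|c| + |d|) (|c| * |d|)
        - 6000 * η / Real.tanh ρ * (|c| * |d|) ≤
      den (Real.tanh ρ ^ 2) * sym 4 ρ (weight (Real.tanh ρ) θ η) r c d := by
  rw [symS_eq_row, sym, mul_add, mul_add]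
  have h1 := kern_ge hρ hτ1 hθ hcut hη hr hc hd
  have h2 := kern_ge hρ hτ1 hθ hcut hη hr hd hc
  rw [show 6000 * η / Real.tanh ρ * (|c| * |d|) = 3000 * η / Real.tanh ρ * (|c| * |d|)
    + 3000 * η / Real.tanh ρ * (|d| * |c|) by ring]
  linarith

/-- The weight clause. -/
theorem weight_cert {ρ : ℝ} (hρ : 0 < ρ) (hτ1 : Real.tanh ρ ^ 2 ≤ 16 / 25) :
    ∀ ε T : ℝ, 0 < ε → 0 < T → ∃ w : ℝ × ℝ → ℝ, ContDiff ℝ 1 w ∧
      (∀ p q, 0 ≤ p → q ^ 2 ≤ 2 * p → 0 < w (p, q)) ∧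
      (∀ r c d, r ∈ Icc 0 T → c ∈ Icc (-1 : ℝ) 1 → d ∈ Icc (-1 : ℝ) 1 → -ε ≤ sym 4 ρ w r c d) ∧
      ∀ r c d, r ∈ Ioc 0 T → c ∈ Ioc (0 : ℝ) 1 → d ∈ Ioc (0 : ℝ) 1 →
        aFour ρ c * d + aFour ρ d * c + 2 * betaFour ρ * c * d * r - ε * (c * d) ≤
          Real.sinh r ^ (4 - 1) * sym 4 ρ w r c d := by
  intro ε B hε hB
  obtain ⟨θ, hθ, hcut⟩ := exists_cutoff
  obtain ⟨τ, hτ⟩ : ∃ τ, τ = Real.tanh ρ := ⟨_, rfl⟩
  have hτ0 : 0 < τ := hτ ▸ tanh_pos hρ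
  have hτ1' : τ ^ 2 ≤ 16 / 25 := hτ ▸ hτ1
  have hden : 0 < den (τ ^ 2) := den_pos (sq_nonneg τ) hτ1'
  have hsB : 0 ≤ Real.sinh B ^ 3 := pow_nonneg (Real.sinh_nonneg_iff.2 hB.le) 3
  obtain ⟨η, hη⟩ : ∃ η, η = τ * den (τ ^ 2) * ε / (6000 * (1 + Real.sinh B ^ 3)) := ⟨_, rfl⟩
  have hη0 : 0 < η := by rw [hη]; positivity
  have hloss : 6000 * η / τ * (1 + Real.sinh B ^ 3) = den (τ ^ 2) * ε := by
    have : 1 + Real.sinh B ^ 3 ≠ 0 := by positivity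
    rw [hη]
    field_simp
  have hK : 0 ≤ 6000 * η / τ := by positivity
  refine ⟨weight τ θ η, contDiff_weight τ hθ hcut hη0.ne',
    fun p q hp hq => weight_pos hτ0 hτ1' hθ hη0.ne' hp hq, ?_, ?_⟩
  · intro r c d hr hc hd
    rcases hr.1.eq_or_lt with h0 | h0
    · have hw := weight_pos (q := 0) hτ0 hτ1' hθ hη0.ne' le_rfl (by simp : (0 : ℝ) ^ 2 ≤ 2 * 0)
      have hcf : Bend.cfac 1 0 = 1 := by simp [Bend.cfac, Bend.csh_zero, Bend.cshd_zero]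
      rw [← h0]
      simp only [sym, kern, zero_pow two_ne_zero, zero_div, zero_mul, mul_zero, sub_zero,
        Real.sqrt_zero, hcf, add_zero, one_mul]
      push_cast
      linarith
    · have hc1 : |c| ≤ 1 := abs_le.2 ⟨hc.1, hc.2⟩
      have hd1 : |d| ≤ 1 := abs_le.2 ⟨hd.1, hd.2⟩
      have hT0 : 0 < Real.tanh (r / 2) := tanh_pos (by linarith)
      have h := sym_ge hρ hτ1 hθ hcut hη0 h0 hc1 hd1
      rw [← hτ] at h
      have hy : τ ^ 2 * (Real.tanh (r / 2) / τ) ^ 2 ≤ 1 := by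
        rw [div_pow, mul_div_cancel₀ _ (pow_pos hτ0 2).ne']
        exact pow_le_one₀ hT0.le (tanh_lt_one' _).le
      have hS := symS_nonneg (pow_pos hτ0 2) hτ1' (div_nonneg hT0.le hτ0.le) hy (abs_nonneg c) hc1
        (abs_nonneg d) hd1
      have h1 := mul_le_mul_of_nonneg_left (mul_le_one₀ hc1 (abs_nonneg d) hd1) hK
      have h2 := mul_le_mul_of_nonneg_left (show (1 : ℝ) ≤ 1 + Real.sinh B ^ 3 by linarith) hK
      rw [hloss] at h2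
      refine le_of_mul_le_mul_left (a := den (τ ^ 2)) ?_ hden
      rw [mul_neg]
      linarith
  · intro r c d hr hc hd
    have hc1 : |c| ≤ 1 := abs_le.2 ⟨by linarith [hc.1], hc.2⟩
    have hd1 : |d| ≤ 1 := abs_le.2 ⟨by linarith [hd.1], hd.2⟩
    have h := sym_ge hρ hτ1 hθ hcut hη0 hr.1 hc1 hd1
    rw [← hτ, abs_of_pos hc.1, abs_of_pos hd.1] at h
    obtain ⟨T, hT⟩ : ∃ T, T = Real.tanh (r / 2) := ⟨_, rfl⟩
    rw [← hT] at h
    have hT0 : 0 < T := hT ▸ tanh_pos (by linarith [hr.1])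
    have hT1 : T < 1 := hT ▸ tanh_lt_one' _
    obtain ⟨x, hx⟩ : ∃ x, x = T / τ := ⟨_, rfl⟩
    rw [← hx] at h
    have hτx : τ * x = T := by rw [hx, mul_div_cancel₀ _ hτ0.ne']
    have hl := line hτ0 hτ1' (hx ▸ div_nonneg hT0.le hτ0.le) (hτx ▸ hT1) hc.1.le hc.2 hd.1.le hd.2
    have hW : 0 < 1 - T ^ 2 := sub_pos.2 (pow_lt_one₀ hT0.le hT1 two_ne_zero)
    have hrL : r = 2 * τ * lFun τ x := by
      rw [lFun, hτx, hT, Real.artanh_tanh]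
      field_simp
    rw [show τ ^ 2 * x ^ 2 = T ^ 2 by rw [← mul_pow, hτx]] at hl
    obtain ⟨S, hS⟩ : ∃ S, S = sym 4 ρ (weight τ θ η) r c d := ⟨_, rfl⟩
    rw [← hS] at h ⊢
    have hsr : Real.sinh r = 2 * T / (1 - T ^ 2) := hT ▸ sinh_eq
    have hsT : Real.sinh r ^ 3 ≤ Real.sinh B ^ 3 :=
      pow_le_pow_left₀ (Real.sinh_nonneg_iff.2 hr.1.le) (Real.sinh_le_sinh.2 hr.2) 3
    have hcd : 0 ≤ c * d := mul_nonneg hc.1.le hd.1.le
    have h3 : Real.sinh r ^ 3 * (6000 * η / τ * (c * d)) ≤ den (τ ^ 2) * (ε * (c * d)) := by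
      have := mul_le_mul_of_nonneg_right (hsT.trans (by linarith : _ ≤ 1 + Real.sinh B ^ 3))
        (mul_nonneg hK hcd)
      calc _ ≤ (1 + Real.sinh B ^ 3) * (6000 * η / τ * (c * d)) := this
        _ = _ := by rw [← mul_assoc, ← mul_assoc, mul_comm _ (6000 * η / τ), hloss]; ring
    have h4 : (2 * τ) ^ 3 * (d * margRat (τ ^ 2) c + c * margRat (τ ^ 2) d
        - 3 * g0 (τ ^ 2) * (c * d) * (lFun τ c + lFun τ d - 2 * lFun τ x)) ≤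
        Real.sinh r ^ 3 * symS (τ ^ 2) x (c + d) (c * d) := by
      rw [hsr, div_pow, div_mul_eq_mul_div, le_div_iff₀ (pow_pos hW 3),
        show (2 * T) ^ 3 = (2 * τ) ^ 3 * x ^ 3 by rw [← hτx]; ring]
      have := mul_le_mul_of_nonneg_left hl (show 0 ≤ (2 * τ) ^ 3 by positivity)
      linarith
    refine le_of_mul_le_mul_left (a := den (τ ^ 2)) ?_ hden
    have h5 := mul_le_mul_of_nonneg_left h (pow_nonneg (Real.sinh_nonneg_iff.2 hr.1.le) 3)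
    have e1 : den (τ ^ 2) * (aFour ρ c * d + aFour ρ d * c + 2 * betaFour ρ * c * d * r) =
        (2 * τ) ^ 3 * (d * margRat (τ ^ 2) c + c * margRat (τ ^ 2) d
          - 3 * g0 (τ ^ 2) * (c * d) * (lFun τ c + lFun τ d - 2 * lFun τ x)) := by
      rw [aFour_eq, aFour_eq, betaFour, ← hτ, hrL]
      field_simp
      ring
    rw [show (4 : ℕ) - 1 = 3 from rfl]
    rw [mul_sub]
    linarith

end Vale.Agent.P219.CH.GenK.Four
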