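import Vale.Agent.P219.GenK.Four.Defs

/-!
# P219, dimension four against curvature at most `-b ^ 2`: the pointwise polynomial

`y = e x ^ 2`. The reduced weight is `x (wP + c ^ 2 wQ)` and `symS` is the symmetrised integrand
at `s = c + d`, `q = c d`, times the denominator.
-/

noncomputable section

namespace Vale.Agent.P219.CH.GenK.Four

/-- The part of the reduced weight independent of the component, over `x`. -/
def wP (e y : ℝ) : ℝ :=
  e * (128 - 164 * e - 6 * e ^ 2 + 32 * e ^ 3) + e * (80 - 128 * e - 9 * e ^ 2 - 10 * e ^ 3) * y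
    + e * (-224 + 316 * e + 37 * e ^ 2 + 2 * e ^ 3) * y ^ 2
    + e * (96 - 138 * e - 12 * e ^ 2) * y ^ 3

/-- The coefficient of the squared component, over `x`. -/
def wQ (e y : ℝ) : ℝ :=
  e ^ 2 * (-208 + 268 * e + 57 * e ^ 2 + 6 * e ^ 3)
    + e ^ 2 * (352 - 488 * e - 71 * e ^ 2 - 6 * e ^ 3) * y
    + e ^ 2 * (-160 + 230 * e + 20 * e ^ 2) * y ^ 2

/-- The derivative of `x wP` in `x`. -/
def dP (e y : ℝ) : ℝ :=
  e * (128 - 164 * e - 6 * e ^ 2 + 32 * e ^ 3) + 3 * e * (80 - 128 * e - 9 * e ^ 2 - 10 * e ^ 3) * y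
    + 5 * e * (-224 + 316 * e + 37 * e ^ 2 + 2 * e ^ 3) * y ^ 2
    + 7 * e * (96 - 138 * e - 12 * e ^ 2) * y ^ 3

/-- The derivative of `x wQ` in `x`. -/
def dQ (e y : ℝ) : ℝ :=
  e ^ 2 * (-208 + 268 * e + 57 * e ^ 2 + 6 * e ^ 3)
    + 3 * e ^ 2 * (352 - 488 * e - 71 * e ^ 2 - 6 * e ^ 3) * y
    + 5 * e ^ 2 * (-160 + 230 * e + 20 * e ^ 2) * y ^ 2

/-- The symmetrised integrand times the denominator. -/
def symS (e x s q : ℝ) : ℝ :=
  2 * den e + (1 - e * x ^ 2) * ((2 - (s ^ 2 - 2 * q)) * dP e (e * x ^ 2)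
      + ((s ^ 2 - 2 * q) - 2 * q ^ 2) * dQ e (e * x ^ 2))
    + (1 + e * x ^ 2) * ((4 + (s ^ 2 - 2 * q)) * wP e (e * x ^ 2)
      + (2 * (s ^ 2 - 2 * q) + 2 * q ^ 2) * wQ e (e * x ^ 2))
    - 6 * x * (s * wP e (e * x ^ 2) + q * s * wQ e (e * x ^ 2))
    + 2 * (1 - e * x ^ 2) * wQ e (e * x ^ 2) * (q * (2 - (s ^ 2 - 2 * q)))

/-- A bound of the symmetrised integrand, affine in each of the squared cosines. -/
def symB (e x u v : ℝ) : ℝ :=
  2 * den e + (1 - e * x ^ 2) * ((1 - v) * (dP e (e * x ^ 2) + u * dQ e (e * x ^ 2))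
      + (1 - u) * (dP e (e * x ^ 2) + v * dQ e (e * x ^ 2)))
    + ((2 + v) * (1 + e * x ^ 2) - 3 * x * (1 + v)) * (wP e (e * x ^ 2) + u * wQ e (e * x ^ 2))
    + ((2 + u) * (1 + e * x ^ 2) - 3 * x * (1 + u)) * (wP e (e * x ^ 2) + v * wQ e (e * x ^ 2))
    + 2 * (1 - e * x ^ 2) * wQ e (e * x ^ 2) * (u + v - 2 * u * v)

/-- The residue of the marginal coefficient. -/
def res (e : ℝ) : ℝ := g0 e + g1 e + g2 e + g3 e

/-- Constant part of the marginal polynomial after division. -/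
def q0c (e : ℝ) : ℝ := -(g1 e + g2 e + g3 e)

/-- Linear part of the marginal polynomial after division. -/
def q1c (e : ℝ) : ℝ := -(g2 e + g3 e)

/-- Quadratic part of the marginal polynomial after division. -/
def q2c (e : ℝ) : ℝ := -g3 e

/-- A bound of the second divided difference of the polynomial part. -/
def curv (e x : ℝ) : ℝ :=
  q2c e * e ^ 2 * (1 + 2 * x + 3 * x ^ 2 + 4 * x ^ 3) + 2 * q1c e * e * x

/-- The reduced inequality, less the penalty that makes it concave in `q`. -/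
def piS (e x s q : ℝ) : ℝ :=
  x ^ 3 * symS e x s q
    - (1 - e * x ^ 2) ^ 3 * q *
      (2 * (q0c e * x + q1c e * e * x ^ 3 + q2c e * e ^ 2 * x ^ 5)
        + (q0c e + 3 * q1c e * e * x ^ 2 + 5 * q2c e * e ^ 2 * x ^ 4) * (s - 2 * x)
        + curv e x * (s ^ 2 - 2 * q - 2 * x * s + 2 * x ^ 2))
    - res e * q * (1 - e * x ^ 2) * (2 * x * (1 - e * x ^ 2) + (1 + e * x ^ 2) * (s - 2 * x)
        + 2 * e * x * (s ^ 2 - 2 * q - 2 * x * s + 2 * x ^ 2))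
    + 3 * g0 e * q * (1 - e * x ^ 2) ^ 2 *
      ((s - 2 * x) + 2 / 3 * e * x * (s ^ 2 - 2 * q - 2 * x * s + 2 * x ^ 2))
    - 2 * (1 - e * x ^ 2) ^ 3 * curv e x * (q - x ^ 2) ^ 2

/-- The coefficient of `q ^ 2` in `piS`. -/
def qLead (e x : ℝ) : ℝ :=
  x ^ 3 * (2 * (1 + e * x ^ 2) * wQ e (e * x ^ 2) + 4 * (1 - e * x ^ 2) * wQ e (e * x ^ 2)
      - 2 * (1 - e * x ^ 2) * dQ e (e * x ^ 2))
    + 4 * res e * e * x * (1 - e * x ^ 2) - 4 * g0 e * e * x * (1 - e * x ^ 2) ^ 2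

/-- The value at `s = q = 0`, over `x ^ 3`. -/
def atZero (e x : ℝ) : ℝ := symS e x 0 0 - 2 * (1 - e * x ^ 2) ^ 3 * curv e x * x

/-- The middle coefficient on `0 ≤ s ≤ 1`, `q = 0`. -/
def atHalf (e x : ℝ) : ℝ :=
  2 * symS e x (1 / 2) 0 - (symS e x 0 0 + symS e x 1 0) / 2
    - 2 * (1 - e * x ^ 2) ^ 3 * curv e x * x

/-- The value at `s = 1`, `q = 0`, over `x ^ 3`. -/
def atOne (e x : ℝ) : ℝ := symS e x 1 0 - 2 * (1 - e * x ^ 2) ^ 3 * curv e x * x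

end Vale.Agent.P219.CH.GenK.Four
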