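import Vale.Agent.P219.GenK.Four.Pointwise
import Vale.Agent.P219.Gen.Law

/-!
# P219, dimension four against curvature at most `-b ^ 2`: the value clause

In dimension four the cosine has density proportional to `sqrt (1 - c ^ 2)`; with `c = sin φ` the
marginal coefficient has an explicit antiderivative.
-/

noncomputable section

open MeasureTheory Set Filter Topology Matrix
open scoped ENNReal

namespace Vale.Agent.P219.CH.GenK.Four

open Gen Gen.Law Gen.Moment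

/-- The substitution of the cosine in dimension four. -/
theorem lintegral_subst_four (g : ℝ → ℝ≥0∞) :
    ∫⁻ τ : ℝ, ENNReal.ofReal ((Real.sqrt (1 + τ ^ 2))⁻¹ ^ (3 + 1)) *
        g (τ / Real.sqrt (1 + τ ^ 2)) =
      ∫⁻ c in Ioo (-1 : ℝ) 1, ENNReal.ofReal (Real.sqrt (1 - c ^ 2)) * g c := by
  have h := lintegral_subst 0 fun c => ENNReal.ofReal (Real.sqrt (1 - c ^ 2)) * g c
  simp only [pow_zero, ENNReal.ofReal_one, one_mul] at h
  rw [← h]
  refine lintegral_congr fun τ => ?_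
  have hs : 0 < Real.sqrt (1 + τ ^ 2) := Real.sqrt_pos.2 (by positivity)
  have e : Real.sqrt (1 - (τ / Real.sqrt (1 + τ ^ 2)) ^ 2) = (Real.sqrt (1 + τ ^ 2))⁻¹ := by
    rw [← Real.sqrt_sq (inv_pos.2 hs).le, div_pow, inv_pow, Real.sq_sqrt (by positivity)]
    congr 1
    have : (1 : ℝ) + τ ^ 2 ≠ 0 := by positivity
    field_simp
    ring
  rw [e, ← mul_assoc, ← ENNReal.ofReal_mul (by positivity)]
  congr 2

theorem integral_half_circle : ∫ c in (-1 : ℝ)..1, Real.sqrt (1 - c ^ 2) = Real.pi / 2 :=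
  integral_sqrt_one_sub_sq

/-- The mass and the one-sided mean in dimension four, as integrals in the cosine. -/
theorem cmean_four {g : ℝ → ℝ} {B : ℝ} (hg : Measurable g) (hgc : ContinuousOn g (Icc 0 1))
    (hb : ∀ c ∈ Icc (0 : ℝ) 1, 0 ≤ g c ∧ g c ≤ B) :
    cmean 4 g * (Real.pi / 2) = ∫ c in (0 : ℝ)..1, g c * Real.sqrt (1 - c ^ 2) := by
  obtain ⟨R, hR⟩ : ∃ R, R = radK 3 := ⟨_, rfl⟩
  obtain ⟨I, hI⟩ : ∃ I, I = ∫ c in (0 : ℝ)..1, g c * Real.sqrt (1 - c ^ 2) := ⟨_, rfl⟩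
  have hcs : Continuous fun c : ℝ => Real.sqrt (1 - c ^ 2) := by fun_prop
  have hmass : ENNReal.ofReal (mass 4) = R * ENNReal.ofReal (Real.pi / 2) := by
    rw [← integral_phi, ofReal_integral_eq_lintegral_ofReal integrable_phi
      (Eventually.of_forall fun w => (Real.exp_pos _).le), hR, ← integral_half_circle,
      ← lintegral_Ioo (by norm_num) (hcs.intervalIntegrable _ _) fun c _ => Real.sqrt_nonneg _]
    have h := lintegral_coord (k := 3) (by norm_num) (g := fun _ => 1) measurable_const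
    rw [lintegral_subst_four fun _ => 1] at h
    simpa using h
  have hside : ENNReal.ofReal (mass 4 * cmean 4 g) = R * ENNReal.ofReal I := by
    rw [← lintegral_side hg hb, lintegral_coord (k := 3) (by norm_num)
      (hg.ennreal_ofReal.indicator measurableSet_Ioi), lintegral_subst_four, hR, hI]
    congr 1
    have hint : IntervalIntegrable (fun c => g c * Real.sqrt (1 - c ^ 2)) volume 0 1 :=
      (hgc.mul hcs.continuousOn).intervalIntegrable_of_Icc zero_le_one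
    rw [← lintegral_Ioo zero_le_one hint fun c hc =>
      mul_nonneg (hb c ⟨hc.1.le, hc.2.le⟩).1 (Real.sqrt_nonneg _)]
    rw [← lintegral_indicator measurableSet_Ioo, ← lintegral_indicator measurableSet_Ioo]
    refine lintegral_congr fun c => ?_
    by_cases h : c ∈ Ioo (0 : ℝ) 1
    · rw [indicator_of_mem h,
        indicator_of_mem (show c ∈ Ioo (-1 : ℝ) 1 from ⟨by linarith [h.1], h.2⟩),
        indicator_of_mem (show c ∈ Ioi (0 : ℝ) from h.1), mul_comm (g c),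
        ENNReal.ofReal_mul (Real.sqrt_nonneg _)]
    · rw [indicator_of_notMem h]
      by_cases h' : c ∈ Ioo (-1 : ℝ) 1
      · rw [indicator_of_mem h', indicator_of_notMem (show c ∉ Ioi (0 : ℝ) from
          fun hc => h ⟨hc, h'.2⟩), mul_zero]
      · rw [indicator_of_notMem h']
  have hfin : R ≠ ⊤ := fun h => by
    rw [h, ENNReal.top_mul (by simpa using Real.pi_pos)] at hmass
    exact ENNReal.ofReal_ne_top hmass
  obtain ⟨q, hq0, hq⟩ : ∃ q : ℝ, 0 ≤ q ∧ R = ENNReal.ofReal q :=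
    ⟨R.toReal, ENNReal.toReal_nonneg, (ENNReal.ofReal_toReal hfin).symm⟩
  have hI0 : 0 ≤ I := hI ▸ intervalIntegral.integral_nonneg zero_le_one fun c hc =>
    mul_nonneg (hb c hc).1 (Real.sqrt_nonneg _)
  rw [hq, ← ENNReal.ofReal_mul hq0] at hmass hside
  have hm : 0 < mass 4 := Gen.Moment.mass_pos
  have e1 : mass 4 = q * (Real.pi / 2) :=
    (ENNReal.ofReal_eq_ofReal_iff hm.le (mul_nonneg hq0 (by positivity))).1 hmass
  have hc0 : 0 ≤ cmean 4 g := by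
    refine div_nonneg (integral_nonneg fun v => mul_nonneg (Real.exp_pos _).le ?_) hm.le
    refine Set.indicator_nonneg (fun v hv => ?_) v
    refine (hb _ ⟨div_nonneg (le_of_lt hv) (Real.sqrt_nonneg _), ?_⟩).1
    refine div_le_one_of_le₀ (Real.le_sqrt_of_sq_le ?_) (Real.sqrt_nonneg _)
    rw [sq]
    exact Finset.single_le_sum (f := fun i => v i * v i) (fun i _ => mul_self_nonneg _)
      (Finset.mem_univ (0 : Fin 4))
  have e2 : mass 4 * cmean 4 g = q * I :=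
    (ENNReal.ofReal_eq_ofReal_iff (mul_nonneg hm.le hc0) (mul_nonneg hq0 hI0)).1 hside
  rw [← hI]
  have hq' : q ≠ 0 := fun h => by rw [h, zero_mul] at e1; exact hm.ne' e1
  refine mul_left_cancel₀ hq' ?_
  rw [← e2, e1]
  ring

/-! ## The antiderivative -/

/-- An antiderivative of `1 / (1 - (1 - k ^ 2) sin ^ 2)` on the whole line. -/
def poleInt (k φ : ℝ) : ℝ :=
  (φ + Real.arctan ((k - 1) * Real.sin φ * Real.cos φ /
    (Real.cos φ ^ 2 + k * Real.sin φ ^ 2))) / k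

theorem hasDerivAt_poleInt {k : ℝ} (hk : 0 < k) (φ : ℝ) :
    HasDerivAt (poleInt k) (1 / (1 - (1 - k ^ 2) * Real.sin φ ^ 2)) φ := by
  have hs := Real.hasDerivAt_sin φ
  have hc := Real.hasDerivAt_cos φ
  have h1 := Real.sin_sq_add_cos_sq φ
  have hk' : ∀ a : ℝ, 0 < a → 0 < Real.cos φ ^ 2 + a * Real.sin φ ^ 2 := by
    intro a ha
    rcases eq_or_ne (Real.sin φ) 0 with h | h
    · rw [h] at h1 ⊢; simp only [ne_eq, OfNat.ofNat_ne_zero, not_false_eq_true, zero_pow,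
        mul_zero, add_zero, zero_add] at h1 ⊢; rw [h1]; norm_num
    · positivity
  have hD := hk' k hk
  have hE := hk' (k ^ 2) (pow_pos hk 2)
  have hA : HasDerivAt (fun z => (k - 1) * Real.sin z * Real.cos z /
      (Real.cos z ^ 2 + k * Real.sin z ^ 2)) _ φ :=
    ((hs.const_mul (k - 1)).mul hc).div ((hc.pow 2).add ((hs.pow 2).const_mul k)) hD.ne'
  have h2 : HasDerivAt (poleInt k) _ φ := ((hasDerivAt_id φ).add hA.arctan).div_const k
  refine h2.congr_deriv ?_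
  simp only [Pi.mul_apply]
  push_cast
  rw [show 1 - (1 - k ^ 2) * Real.sin φ ^ 2 = Real.cos φ ^ 2 + k ^ 2 * Real.sin φ ^ 2 by
    linear_combination -h1]
  obtain ⟨s, hsd⟩ : ∃ s, s = Real.sin φ := ⟨_, rfl⟩
  obtain ⟨t, htd⟩ : ∃ t, t = Real.cos φ := ⟨_, rfl⟩
  rw [← hsd, ← htd] at hD hE h1 ⊢
  have h3 : (t ^ 2 + k * s ^ 2) ^ 2 + ((k - 1) * s * t) ^ 2 = t ^ 2 + k ^ 2 * s ^ 2 := by
    linear_combination (t ^ 2 + k ^ 2 * s ^ 2) * h1
  have h4 : 1 + ((k - 1) * s * t / (t ^ 2 + k * s ^ 2)) ^ 2 =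
      (t ^ 2 + k ^ 2 * s ^ 2) / (t ^ 2 + k * s ^ 2) ^ 2 := by
    rw [← h3]
    field_simp
  rw [h4]
  field_simp
  linear_combination (k * t ^ 2 - k ^ 2 * s ^ 2 - t ^ 2 + k * s ^ 2 + k) * h1

variable {ρ : ℝ}

theorem cosh_sq_inv (ρ : ℝ) : (1 / Real.cosh ρ) ^ 2 = 1 - Real.tanh ρ ^ 2 := by
  have := (Real.cosh_pos ρ).ne'
  rw [Real.tanh_eq_sinh_div_cosh, div_pow, div_pow, eq_sub_iff_add_eq, ← add_div,
    div_eq_one_iff_eq (pow_ne_zero 2 this), Real.cosh_sq]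
  ring

theorem continuousOn_aFour (hρ : 0 < ρ) :
    ContinuousOn (aFour ρ) (Icc 0 1) := by
  have hτ0 := tanh_pos hρ
  have e : aFour ρ = fun t => (2 * Real.tanh ρ) ^ 3 / den (Real.tanh ρ ^ 2) *
      (margRat (Real.tanh ρ ^ 2) t - 3 * g0 (Real.tanh ρ ^ 2) * t * lFun (Real.tanh ρ) t) :=
    funext (aFour_eq ρ)
  rw [e]
  intro t ht
  have htτ : Real.tanh ρ * t < 1 :=
    (mul_le_of_le_one_right hτ0.le ht.2).trans_lt (tanh_lt_one' ρ)
  have hl := (hasDerivAt_lFun hτ0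
    (show Real.tanh ρ * t ∈ Ioo (-1 : ℝ) 1 from
      ⟨by linarith [mul_nonneg hτ0.le ht.1], htτ⟩)).continuousAt
  have hne : 1 - Real.tanh ρ ^ 2 * t ^ 2 ≠ 0 := (sub_pos.2 (y_lt_one hτ0.le ht.1 htτ)).ne'
  have hm : ContinuousAt (fun t => margRat (Real.tanh ρ ^ 2) t) t := by
    unfold margRat gPoly
    fun_prop (disch := assumption)
  exact ((hm.sub ((continuousAt_const.mul continuousAt_id).mul hl)).const_mul _).continuousWithinAt

theorem measurable_artanh : Measurable Real.artanh := by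
  unfold Real.artanh
  fun_prop

theorem measurable_aFour (ρ : ℝ) : Measurable (aFour ρ) := by
  have := measurable_artanh
  unfold aFour gPoly
  fun_prop

theorem exists_bound_aFour (hρ : 0 < ρ) :
    ∃ B, ∀ c ∈ Icc (0 : ℝ) 1, -B ≤ aFour ρ c := by
  obtain ⟨B, hB⟩ := isCompact_Icc.bddBelow_image (continuousOn_aFour hρ)
  exact ⟨-B, fun c hc => by rw [neg_neg]; exact hB ⟨c, hc, rfl⟩⟩

/-- The mean of the marginal coefficient. -/
theorem cmean_aFour (hρ : 0 < ρ) (hτ1 : Real.tanh ρ ^ 2 ≤ 16 / 25) {e C0 C2 C4 C6 C8 : ℝ}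
    (he : e = Real.tanh ρ ^ 2)
    (h0 : C0 = (g0 e + res e) / e - ((1 - e) * g0 e + res e) / e ^ 2)
    (h2 : C2 = -(g0 e + res e) / e - q0c e) (h4 : C4 = q0c e - q1c e * e)
    (h6 : C6 = q1c e * e - q2c e * e ^ 2) (h8 : C8 = q2c e * e ^ 2) :
    cmean 4 (fun c => -aFour ρ c) = (2 * Real.tanh ρ) ^ 3 / den e *
      ((C0 + C2 / 2 + 3 * C4 / 8 + 5 * C6 / 16 + 35 * C8 / 128)
        + ((1 - e) * g0 e + res e) * (1 - e) / e ^ 2 * Real.cosh ρ) := by
  obtain ⟨τ, hτ⟩ : ∃ τ, τ = Real.tanh ρ := ⟨_, rfl⟩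
  have hτ0 : 0 < τ := hτ ▸ tanh_pos hρ
  have hτ2 : τ < 1 := hτ ▸ tanh_lt_one' ρ
  rw [← hτ] at he ⊢
  have he0 : 0 < e := he ▸ pow_pos hτ0 2
  obtain ⟨k, hk⟩ : ∃ k, k = 1 / Real.cosh ρ := ⟨_, rfl⟩
  have hk0 : 0 < k := hk ▸ div_pos one_pos (Real.cosh_pos ρ)
  have hk2 : 1 - k ^ 2 = e := by rw [hk, cosh_sq_inv, he, hτ]; ring
  obtain ⟨B, hB⟩ := exists_bound_aFour hρ
  have h := cmean_four (g := fun c => -aFour ρ c) (B := B) (measurable_aFour ρ).neg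
    (continuousOn_aFour hρ).neg
    fun c hc => ⟨neg_nonneg.2 (aFour_nonpos hρ hτ1 hc.1 hc.2), by linarith [hB c hc]⟩
  obtain ⟨f, hf⟩ : ∃ f : ℝ → ℝ, f = fun t => -aFour ρ t * Real.sqrt (1 - t ^ 2) := ⟨_, rfl⟩
  have hfc : ContinuousOn f (Icc 0 1) := by
    rw [hf]; exact (continuousOn_aFour hρ).neg.mul (by fun_prop)
  obtain ⟨K, hK⟩ : ∃ K, K = (2 * τ) ^ 3 / den e := ⟨_, rfl⟩
  obtain ⟨p7, hp7⟩ : ∃ p, p = -C8 / 8 := ⟨_, rfl⟩
  obtain ⟨p5, hp5⟩ : ∃ p, p = (7 * p7 - C6) / 6 := ⟨_, rfl⟩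
  obtain ⟨p3, hp3⟩ : ∃ p, p = (5 * p5 - C4) / 4 := ⟨_, rfl⟩
  obtain ⟨p1, hp1⟩ : ∃ p, p = (3 * p3 - C2) / 2 := ⟨_, rfl⟩
  obtain ⟨γ, hγ⟩ : ∃ γ, γ = ((1 - e) * g0 e + res e) * (1 - e) / e ^ 2 := ⟨_, rfl⟩
  obtain ⟨Φ, hΦ⟩ : ∃ Φ : ℝ → ℝ, Φ = fun z => K * ((C0 - p1) * z + γ * poleInt k z
      + Real.cos z * (p1 * Real.sin z + p3 * Real.sin z ^ 3 + p5 * Real.sin z ^ 5
        + p7 * Real.sin z ^ 7) - g0 e * Real.cos z ^ 3 * lFun τ (Real.sin z)) := ⟨_, rfl⟩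
  have hd : ∀ z ∈ Icc (0 : ℝ) (Real.pi / 2),
      HasDerivAt Φ (f (Real.sin z) * Real.cos z) z := by
    intro z hz
    have hc0 : 0 ≤ Real.cos z :=
      Real.cos_nonneg_of_mem_Icc ⟨by linarith [hz.1, Real.pi_pos], hz.2⟩
    have hs0 : 0 ≤ Real.sin z :=
      Real.sin_nonneg_of_nonneg_of_le_pi hz.1 (by linarith [hz.2, Real.pi_pos])
    have hs1 := Real.sin_le_one z
    have hsτ : τ * Real.sin z < 1 := (mul_le_of_le_one_right hτ0.le hs1).trans_lt hτ2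
    have hne : 1 - e * Real.sin z ^ 2 ≠ 0 :=
      (sub_pos.2 (he ▸ y_lt_one hτ0.le hs0 hsτ)).ne'
    have hsq : Real.sqrt (1 - Real.sin z ^ 2) = Real.cos z := by
      rw [← Real.cos_sq', Real.sqrt_sq hc0]
    have d1 := (hasDerivAt_id z).const_mul (C0 - p1)
    have d2 := (hasDerivAt_poleInt hk0 z).const_mul γ
    have hs := Real.hasDerivAt_sin z
    have hc := Real.hasDerivAt_cos z
    have d3 := hc.mul ((((hs.const_mul p1).add ((hs.pow 3).const_mul p3)).add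
      ((hs.pow 5).const_mul p5)).add ((hs.pow 7).const_mul p7))
    have hL : HasDerivAt (lFun τ) (1 / (1 - τ ^ 2 * Real.sin z ^ 2)) (Real.sin z) :=
      hasDerivAt_lFun hτ0 ⟨by linarith [mul_nonneg hτ0.le hs0], hsτ⟩
    have d4 := ((hc.pow 3).const_mul (g0 e)).mul (hL.comp z hs)
    have dΦ : HasDerivAt Φ _ z := hΦ ▸ (((d1.add d2).add d3).sub d4).const_mul K
    refine dΦ.congr_deriv ?_
    simp only [Pi.add_apply, Pi.pow_apply, Function.comp_apply]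
    rw [hf]
    simp only
    rw [hsq, aFour_eq, ← hτ, ← he, ← hK, hk2, margRat_eq (fun h => hne (by rw [h, sub_self])),
      hγ, hp1, hp3, hp5, hp7, h0, h2, h4, h6, h8]
    push_cast
    obtain ⟨s, hsd⟩ : ∃ s, s = Real.sin z := ⟨_, rfl⟩
    obtain ⟨t, htd⟩ : ∃ t, t = Real.cos z := ⟨_, rfl⟩
    have h1 : t ^ 2 = 1 - s ^ 2 := by rw [hsd, htd]; exact Real.cos_sq' z
    rw [← hsd] at hne
    rw [← hsd, ← htd]
    obtain ⟨Lv, hLv⟩ : ∃ Lv, Lv = lFun τ s := ⟨_, rfl⟩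
    rw [← hLv]
    rw [show t ^ (3 : ℕ) = (1 - s ^ 2) * t by rw [← h1]; ring]
    field_simp
    rw [h1]
    ring
  have hint : ∫ t in (0 : ℝ)..1, f t = Φ (Real.pi / 2) - Φ 0 := by
    have hmaps : ∀ z ∈ uIcc (0 : ℝ) (Real.pi / 2), Real.sin z ∈ Icc (0 : ℝ) 1 := by
      intro z hz
      rw [uIcc_of_le (by positivity)] at hz
      exact ⟨Real.sin_nonneg_of_nonneg_of_le_pi hz.1 (by linarith [hz.2, Real.pi_pos]),
        Real.sin_le_one z⟩
    have h1 := intervalIntegral.integral_comp_mul_deriv' (a := 0) (b := Real.pi / 2)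
      (f := Real.sin) (f' := Real.cos) (g := f) (fun z _ => Real.hasDerivAt_sin z)
      Real.continuous_cos.continuousOn
      (hfc.mono (by rintro _ ⟨z, hz, rfl⟩; exact hmaps z hz))
    rw [Real.sin_zero, Real.sin_pi_div_two] at h1
    rw [← h1]
    refine intervalIntegral.integral_eq_sub_of_hasDerivAt (fun z hz => ?_) ?_
    · rw [uIcc_of_le (by positivity)] at hz
      exact hd z hz
    · refine ContinuousOn.intervalIntegrable ?_
      exact (hfc.comp Real.continuous_sin.continuousOn fun z hz => hmaps z hz).mul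
        Real.continuous_cos.continuousOn
  rw [hf] at hint
  rw [hint] at h
  have hend : Φ (Real.pi / 2) - Φ 0 =
      K * ((C0 - p1) + γ * Real.cosh ρ) * (Real.pi / 2) := by
    have hk1 : 1 / k = Real.cosh ρ := by rw [hk, one_div_one_div]
    simp [hΦ, poleInt, lFun, ← hk1]
    ring
  rw [hend] at h
  have h' := mul_right_cancel₀ (by positivity) h
  rw [h', hK, hγ, hp1, hp3, hp5, hp7]
  ring

theorem integral_sinh_cube (ρ : ℝ) :
    ∫ t in (0 : ℝ)..ρ, Real.sinh t ^ 3 = Real.cosh ρ ^ 3 / 3 - Real.cosh ρ + 2 / 3 := by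
  have hd : ∀ t ∈ uIcc (0 : ℝ) ρ,
      HasDerivAt (fun t => Real.cosh t ^ 3 / 3 - Real.cosh t) (Real.sinh t ^ 3) t := by
    intro t _
    refine ((((Real.hasDerivAt_cosh t).pow 3).div_const 3).sub
      (Real.hasDerivAt_cosh t)).congr_deriv ?_
    push_cast
    rw [show Real.sinh t ^ 3 = Real.sinh t ^ 2 * Real.sinh t by ring, Real.sinh_sq]
    ring
  rw [intervalIntegral.integral_eq_sub_of_hasDerivAt hd
    ((Real.continuous_sinh.pow 3).intervalIntegrable _ _), Real.cosh_zero]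
  ring

/-- The value clause: an equality, as the model ball attains it. -/
theorem value_four (hρ : 0 < ρ) (hτ1 : Real.tanh ρ ^ 2 ≤ 16 / 25) :
    Real.sinh ρ ^ (2 * (4 - 1)) + cmean 4 (fun c => -aFour ρ c) * Real.sinh ρ ^ (4 - 1) ≤
      betaFour ρ * ∫ t in (0 : ℝ)..ρ, Real.sinh t ^ (4 - 1) := by
  refine le_of_eq ?_
  rw [show 2 * (4 - 1) = 6 from rfl, show 4 - 1 = 3 from rfl, integral_sinh_cube,
    cmean_aFour hρ hτ1 rfl rfl rfl rfl rfl rfl, betaFour]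
  obtain ⟨τ, hτ⟩ : ∃ τ, τ = Real.tanh ρ := ⟨_, rfl⟩
  obtain ⟨C, hC⟩ : ∃ C, C = Real.cosh ρ := ⟨_, rfl⟩
  have hC0 : 0 < C := hC ▸ Real.cosh_pos ρ
  have hτ0 : 0 < τ := hτ ▸ tanh_pos hρ
  have hS : Real.sinh ρ = τ * C := by
    rw [hτ, hC, Real.tanh_eq_sinh_div_cosh, div_mul_cancel₀ _ (Real.cosh_pos ρ).ne']
  have hτC : τ ^ 2 = 1 - 1 / C ^ 2 := by
    rw [hτ, hC, ← _root_.one_div_pow, cosh_sq_inv]; ring
  rw [← hτ] at hτ1
  have hden := den_pos (sq_nonneg τ) hτ1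
  rw [hS, ← hC, ← hτ]
  rw [show (τ * C) ^ 6 = (τ ^ 2) ^ 3 * C ^ 6 by ring,
    show ∀ a : ℝ, (2 * τ) ^ 3 / den (τ ^ 2) * a * (τ * C) ^ 3 =
      8 * (τ ^ 2) ^ 3 * C ^ 3 / den (τ ^ 2) * a from fun a => by ring,
    show (2 * τ) ^ 2 = 4 * τ ^ 2 by ring]
  have he0 : τ ^ 2 ≠ 0 := pow_ne_zero 2 hτ0.ne'
  rw [hτC] at hden he0 ⊢
  have hC1 : C ^ 2 - 1 ≠ 0 := by
    intro h
    exact he0 (by rw [sub_eq_zero.1 h]; norm_num)
  have hd2 : den (1 - 1 / C ^ 2) = 32 * (11 * C ^ 2 - 3) / C ^ 8 := by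
    simp only [den]
    field_simp
    ring
  have hC2 : 11 * C ^ 2 - 3 ≠ 0 := by
    have h1 : 1 ≤ C ^ 2 := one_le_pow₀ (hC ▸ Real.one_le_cosh ρ)
    linarith
  rw [hd2]
  obtain ⟨D, hD⟩ : ∃ D, D = 11 * C ^ 2 - 3 := ⟨_, rfl⟩
  rw [← hD] at hC2 ⊢
  simp only [g0, g1, g2, g3, res, q0c, q1c, q2c]
  field_simp
  subst hD
  ring

end Vale.Agent.P219.CH.GenK.Four
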