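import Vale.Agent.P219.GenK.Four.Hyper
import Vale.Agent.P219.GenK.Four.Line
import Vale.Agent.P219.Eight.Weight

/-!
# P219, dimension four against curvature at most `-b ^ 2`: the weight

`kfac (1 / 2) a = tanh (r / 2) / (r / 2)` at `a = r ^ 2 / 2` extends the reduced variable smoothly;
only the squared cosine `s ^ 2 / r ^ 2` is regularised.
-/

noncomputable section

open Set Filter Topology

namespace Vale.Agent.P219.CH.GenK.Four

open Eight (rho2 rho2_pos rho2_of_gt contDiff_rho2)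

/-- The half squared distance, cut off below a small negative number. -/
def halfSq (θ a : ℝ) : ℝ := (rho2 θ a - θ ^ 2) / 2

theorem halfSq_eq {θ a : ℝ} (hθ : θ ≠ 0) (ha : 0 ≤ a) : halfSq θ a = a := by
  rw [halfSq, rho2_of_gt hθ (by linarith [sq_nonneg θ])]
  ring

theorem halfSq_gt {θ : ℝ} (hθ : θ ≠ 0) (a : ℝ) : -θ ^ 2 / 2 < halfSq θ a := by
  rw [halfSq]
  linarith [rho2_pos hθ a]

theorem contDiff_halfSq (θ : ℝ) : ContDiff ℝ 1 (halfSq θ) := by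
  unfold halfSq
  exact ((contDiff_rho2 θ).sub contDiff_const).div_const _

/-- The hyperbolic cosine series stays positive slightly left of zero. -/
theorem exists_cutoff : ∃ θ : ℝ, 0 < θ ∧ ∀ X : ℝ, -θ ^ 2 / 4 ≤ X → 0 < Bend.csh X := by
  have h : ∀ᶠ X in 𝓝 (0 : ℝ), 0 < Bend.csh X :=
    (Bend.contDiff_csh (k := 1)).continuous.continuousAt.eventually
      (lt_mem_nhds (by rw [Bend.csh_zero]; norm_num))
  obtain ⟨δ, hδ, hX⟩ := Metric.eventually_nhds_iff.1 h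
  refine ⟨Real.sqrt δ, Real.sqrt_pos.2 hδ, fun X h1 => ?_⟩
  rw [Real.sq_sqrt hδ.le] at h1
  rcases le_or_gt 0 X with h2 | h2
  · exact Bend.csh_pos h2
  · exact hX (by rw [Real.dist_eq, sub_zero, abs_of_neg h2]; linarith)

/-- The factor between the reduced variable and the length. -/
def kap (θ a : ℝ) : ℝ := Bend.kfac (1 / 2) (halfSq θ a)

/-- The weight. -/
def weight (τ θ η : ℝ) (z : ℝ × ℝ) : ℝ :=
  kap θ z.1 / den (τ ^ 2) * (wP (τ ^ 2) (halfSq θ z.1 * kap θ z.1 ^ 2 / 2)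
    + z.2 ^ 2 / rho2 η z.1 * wQ (τ ^ 2) (halfSq θ z.1 * kap θ z.1 ^ 2 / 2))

theorem contDiff_weight {θ η : ℝ} (τ : ℝ) (hθ : 0 < θ)
    (hcut : ∀ X : ℝ, -θ ^ 2 / 4 ≤ X → 0 < Bend.csh X) (hη : η ≠ 0) :
    ContDiff ℝ 1 (weight τ θ η) := by
  have hh : ContDiff ℝ 1 fun z : ℝ × ℝ => halfSq θ z.1 := (contDiff_halfSq θ).comp contDiff_fst
  have hX : ContDiff ℝ 1 fun z : ℝ × ℝ => 2 * (1 / 2 : ℝ) ^ 2 * halfSq θ z.1 :=
    contDiff_const.mul hh
  have hk : ContDiff ℝ 1 fun z : ℝ × ℝ => kap θ z.1 := by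
    simp only [kap, Bend.kfac]
    refine (contDiff_const.mul (Bend.contDiff_cshd.comp hX)).div (Bend.contDiff_csh.comp hX)
      fun z => (hcut _ ?_).ne'
    linarith [halfSq_gt hθ.ne' z.1]
  have hy : ContDiff ℝ 1 fun z : ℝ × ℝ => halfSq θ z.1 * kap θ z.1 ^ 2 / 2 :=
    (hh.mul (hk.pow 2)).div_const _
  have hP : ContDiff ℝ 1 (wP (τ ^ 2)) := by unfold wP; fun_prop
  have hQ : ContDiff ℝ 1 (wQ (τ ^ 2)) := by unfold wQ; fun_prop
  unfold weight
  exact (hk.div_const _).mul ((hP.comp hy).add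
    (((contDiff_snd.pow 2).div ((contDiff_rho2 η).comp contDiff_fst)
      fun z => (rho2_pos hη _).ne').mul (hQ.comp hy)))

theorem den_pos {e : ℝ} (he : 0 ≤ e) (he1 : e ≤ 16 / 25) : 0 < den e := by
  have : 0 < 1 - e := by linarith
  unfold den
  positivity

theorem g0_nonneg {e : ℝ} (he : 0 ≤ e) (he1 : e ≤ 16 / 25) : 0 ≤ g0 e := by
  have h2 := mul_le_mul he1 he1 he (by norm_num)
  have := pow_nonneg he 3
  unfold g0
  linarith

theorem weight_pos {τ θ η p q : ℝ} (hτ : 0 < τ) (hτ1 : τ ^ 2 ≤ 16 / 25) (hθ : 0 < θ)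
    (hη : η ≠ 0) (hp : 0 ≤ p) (hq : q ^ 2 ≤ 2 * p) : 0 < weight τ θ η (p, q) := by
  obtain ⟨X, hX⟩ : ∃ X, X = 2 * (1 / 2 : ℝ) ^ 2 * p := ⟨_, rfl⟩
  have hX0 : 0 ≤ X := by rw [hX]; positivity
  obtain ⟨k, hk⟩ : ∃ k, k = kap θ p := ⟨_, rfl⟩
  have hk' : k = 2 * Bend.cshd X / Bend.csh X := by
    rw [hk, kap, halfSq_eq hθ.ne' hp, Bend.kfac, hX]
  have hk0 : 0 < k := hk' ▸ div_pos (mul_pos two_pos (Bend.cshd_pos hX0)) (Bend.csh_pos hX0)
  obtain ⟨y, hy⟩ : ∃ y, y = p * k ^ 2 / 2 := ⟨_, rfl⟩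
  have hy0 : 0 ≤ y := by rw [hy]; positivity
  have hy1 : y ≤ 1 := by
    have h := Bend.four_mul_cshd_sq hX0
    have hc := Bend.csh_pos hX0
    rw [show y = X * k ^ 2 by rw [hy, hX]; ring, hk', div_pow, ← mul_div_assoc,
      div_le_one (pow_pos hc 2)]
    linarith
  obtain ⟨x, hx⟩ : ∃ x, x = Real.sqrt y / τ := ⟨_, rfl⟩
  have hx0 : 0 ≤ x := hx ▸ div_nonneg (Real.sqrt_nonneg y) hτ.le
  have hexy : τ ^ 2 * x ^ 2 = y := by
    rw [hx, div_pow, Real.sq_sqrt hy0, mul_div_cancel₀ _ (pow_pos hτ 2).ne']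
  have h1 := wSum_nonneg (pow_pos hτ 2) hτ1 hx0 (hexy ▸ hy1)
  have h2 := wQ_nonneg (pow_pos hτ 2) hτ1 hx0 (hexy ▸ hy1)
  rw [hexy] at h1 h2
  simp only [weight, halfSq_eq hθ.ne' hp, ← hk, ← hy]
  have hσ : q ^ 2 / rho2 η p ≤ 1 := by
    rw [div_le_one (rho2_pos hη p), rho2_of_gt hη (by linarith [sq_nonneg η])]
    linarith [sq_nonneg η]
  have he : 0 < τ ^ 2 * (1 - τ ^ 2) := mul_pos (pow_pos hτ 2) (by linarith)
  refine mul_pos (div_pos hk0 (den_pos (sq_nonneg τ) hτ1)) ?_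
  linarith [mul_nonneg (sub_nonneg.2 hσ) h2]

/-! ## The weight along a ray -/

theorem tanh_kap {θ r : ℝ} (hθ : θ ≠ 0) (hr : 0 < r) :
    kap θ (r ^ 2 / 2) = 2 * Real.tanh (r / 2) / r := by
  rw [kap, halfSq_eq hθ (by positivity), Bend.kfac,
    show 2 * (1 / 2 : ℝ) ^ 2 * (r ^ 2 / 2) = (r / 2) ^ 2 by ring, Bend.csh_sq, Real.tanh_eq_sinh_div_cosh,
    ← Bend.two_mul_cshd_sq (r / 2)]
  have := (Real.cosh_pos (r / 2)).ne'
  field_simp

theorem cfac_one {r : ℝ} (hr : 0 < r) :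
    Bend.cfac 1 (r ^ 2 / 2) = r * ((1 + Real.tanh (r / 2) ^ 2) / (2 * Real.tanh (r / 2))) := by
  have h1 := Bend.two_mul_cshd_sq r
  rw [Bend.cfac, show 2 * (1 : ℝ) ^ 2 * (r ^ 2 / 2) = r ^ 2 by ring, Bend.csh_sq]
  have hs : 0 < Real.sinh r := Real.sinh_pos_iff.2 hr
  rw [show Real.cosh r / (2 * Bend.cshd (r ^ 2)) = r * (Real.cosh r / Real.sinh r) by
    rw [← h1]; field_simp]
  congr 1
  have hc := Real.cosh_pos (r / 2)
  have hs2 : 0 < Real.sinh (r / 2) := Real.sinh_pos_iff.2 (by linarith)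
  have e : r = 2 * (r / 2) := by ring
  conv_lhs => rw [e, Real.cosh_two_mul, Real.sinh_two_mul]
  rw [Real.tanh_eq_sinh_div_cosh]
  field_simp

theorem sinh_eq {r : ℝ} :
    Real.sinh r = 2 * Real.tanh (r / 2) / (1 - Real.tanh (r / 2) ^ 2) := by
  have hc := Real.cosh_pos (r / 2)
  have h1 : 1 - Real.tanh (r / 2) ^ 2 = 1 / Real.cosh (r / 2) ^ 2 := by
    rw [Real.tanh_eq_sinh_div_cosh, Real.cosh_sq]
    have : Real.sinh (r / 2) ^ 2 + 1 ≠ 0 := by positivity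
    rw [div_pow, Real.cosh_sq]
    field_simp
    ring
  have e : r = 2 * (r / 2) := by ring
  conv_lhs => rw [e, Real.sinh_two_mul]
  rw [h1, Real.tanh_eq_sinh_div_cosh]
  field_simp

theorem tanh_lt_one' (r : ℝ) : Real.tanh r < 1 := (abs_lt.1 (Real.abs_tanh_lt_one r)).2

theorem hasDerivAt_tanh_half (r : ℝ) :
    HasDerivAt (fun z => Real.tanh (z / 2)) ((1 - Real.tanh (r / 2) ^ 2) / 2) r := by
  have hc := (Real.cosh_pos (r / 2)).ne'
  have h : HasDerivAt (fun z => Real.sinh (z / 2) / Real.cosh (z / 2)) _ r :=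
    (((hasDerivAt_id r).div_const 2).sinh).div (((hasDerivAt_id r).div_const 2).cosh) hc
  refine (h.congr_deriv ?_).congr_of_eventuallyEq
    (Eventually.of_forall fun z => Real.tanh_eq_sinh_div_cosh _)
  rw [Real.tanh_eq_sinh_div_cosh]
  simp only [id_eq]
  field_simp

theorem weight_ray {θ η τ r : ℝ} (hθ : θ ≠ 0) (hη : η ≠ 0) (hr : 0 < r) (s : ℝ) :
    weight τ θ η (r ^ 2 / 2, s) = 2 * Real.tanh (r / 2) * (wP (τ ^ 2) (Real.tanh (r / 2) ^ 2)
      + s ^ 2 / (r ^ 2 + η ^ 2) * wQ (τ ^ 2) (Real.tanh (r / 2) ^ 2)) / (r * den (τ ^ 2)) := by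
  have hz2 : 0 ≤ r ^ 2 / 2 := by positivity
  have ey : r ^ 2 / 2 * (2 * Real.tanh (r / 2) / r) ^ 2 / 2 = Real.tanh (r / 2) ^ 2 := by
    field_simp
  simp only [weight, tanh_kap hθ hr, halfSq_eq hθ hz2, ey,
    rho2_of_gt hη (show -(η ^ 2 / 4) ≤ r ^ 2 / 2 by linarith [sq_nonneg η])]
  rw [show η ^ 2 + 2 * (r ^ 2 / 2) = r ^ 2 + η ^ 2 by ring, div_div, div_mul_eq_mul_div]

/-- The two partial derivatives on the axis of a positive distance. -/
theorem partials {θ η τ r : ℝ} (hθ : 0 < θ)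
    (hcut : ∀ X : ℝ, -θ ^ 2 / 4 ≤ X → 0 < Bend.csh X) (hη : η ≠ 0) (hr : 0 < r) (s : ℝ) :
    Dir.wa (weight τ θ η) (r ^ 2 / 2, s) * r =
      ((1 - Real.tanh (r / 2) ^ 2) * (dP (τ ^ 2) (Real.tanh (r / 2) ^ 2)
            + s ^ 2 / (r ^ 2 + η ^ 2) * dQ (τ ^ 2) (Real.tanh (r / 2) ^ 2))
          - 4 * r * s ^ 2 / (r ^ 2 + η ^ 2) ^ 2 * Real.tanh (r / 2)
              * wQ (τ ^ 2) (Real.tanh (r / 2) ^ 2)) / (r * den (τ ^ 2))
        - 2 * Real.tanh (r / 2) * (wP (τ ^ 2) (Real.tanh (r / 2) ^ 2)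
            + s ^ 2 / (r ^ 2 + η ^ 2) * wQ (τ ^ 2) (Real.tanh (r / 2) ^ 2))
          / (r ^ 2 * den (τ ^ 2)) ∧
    Dir.wb (weight τ θ η) (r ^ 2 / 2, s) =
      4 * Real.tanh (r / 2) * s / (r ^ 2 + η ^ 2) * wQ (τ ^ 2) (Real.tanh (r / 2) ^ 2)
        / (r * den (τ ^ 2)) := by
  have hd : HasFDerivAt (weight τ θ η) (fderiv ℝ (weight τ θ η) (r ^ 2 / 2, s)) (r ^ 2 / 2, s) :=
    ((contDiff_weight τ hθ hcut hη).differentiable one_ne_zero _).hasFDerivAt
  have hval := fun (z : ℝ) (hz : 0 < z) (t : ℝ) => weight_ray (τ := τ) hθ.ne' hη hz t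
  have hR : r ^ 2 + η ^ 2 ≠ 0 := by positivity
  constructor
  · have h1 : HasDerivAt (fun z => weight τ θ η (z ^ 2 / 2, s))
        (Dir.wa (weight τ θ η) (r ^ 2 / 2, s) * r) r := by
      have h0 : HasDerivAt (fun t => weight τ θ η (t, s)) (Dir.wa (weight τ θ η) (r ^ 2 / 2, s))
          (r ^ 2 / 2) :=
        hd.comp_hasDerivAt_of_eq (r ^ 2 / 2)
          ((hasDerivAt_id (r ^ 2 / 2)).prodMk (hasDerivAt_const (r ^ 2 / 2) s)) rfl
      have hsq : HasDerivAt (fun z : ℝ => z ^ 2 / 2) r r :=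
        ((hasDerivAt_pow 2 r).div_const 2).congr_deriv (by norm_num)
      exact h0.comp r hsq
    refine h1.unique ?_
    obtain ⟨e, he⟩ : ∃ e, e = τ ^ 2 := ⟨_, rfl⟩
    simp only [← he]
    have hT := hasDerivAt_tanh_half r
    have hP : HasDerivAt (fun z => 2 * Real.tanh (z / 2) * wP e (Real.tanh (z / 2) ^ 2))
        ((1 - Real.tanh (r / 2) ^ 2) * dP e (Real.tanh (r / 2) ^ 2)) r := by
      have h : HasDerivAt (fun y => wP e y)
          (e * (80 - 128 * e - 9 * e ^ 2 - 10 * e ^ 3)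
            + 2 * e * (-224 + 316 * e + 37 * e ^ 2 + 2 * e ^ 3) * Real.tanh (r / 2) ^ 2
            + 3 * e * (96 - 138 * e - 12 * e ^ 2) * (Real.tanh (r / 2) ^ 2) ^ 2)
          (Real.tanh (r / 2) ^ 2) := by
        have h : HasDerivAt (fun y => wP e y) _ (Real.tanh (r / 2) ^ 2) :=
          ((((hasDerivAt_id _).const_mul (e * (80 - 128 * e - 9 * e ^ 2 - 10 * e ^ 3))).const_add
            (e * (128 - 164 * e - 6 * e ^ 2 + 32 * e ^ 3))).add
            ((hasDerivAt_pow 2 _).const_mul (e * (-224 + 316 * e + 37 * e ^ 2 + 2 * e ^ 3)))).add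
            ((hasDerivAt_pow 3 _).const_mul (e * (96 - 138 * e - 12 * e ^ 2)))
        exact h.congr_deriv (by push_cast; ring)
      refine ((hT.const_mul 2).mul (h.comp r (hT.pow 2))).congr_deriv ?_
      simp only [dP, wP, Function.comp_apply, Pi.pow_apply]
      push_cast
      ring
    have hQ : HasDerivAt (fun z => 2 * Real.tanh (z / 2) * wQ e (Real.tanh (z / 2) ^ 2))
        ((1 - Real.tanh (r / 2) ^ 2) * dQ e (Real.tanh (r / 2) ^ 2)) r := by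
      have h : HasDerivAt (fun y => wQ e y)
          (e ^ 2 * (352 - 488 * e - 71 * e ^ 2 - 6 * e ^ 3)
            + 2 * e ^ 2 * (-160 + 230 * e + 20 * e ^ 2) * Real.tanh (r / 2) ^ 2)
          (Real.tanh (r / 2) ^ 2) := by
        have h : HasDerivAt (fun y => wQ e y) _ (Real.tanh (r / 2) ^ 2) :=
          (((hasDerivAt_id _).const_mul (e ^ 2 * (352 - 488 * e - 71 * e ^ 2 - 6 * e ^ 3))).const_add
            (e ^ 2 * (-208 + 268 * e + 57 * e ^ 2 + 6 * e ^ 3))).add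
            ((hasDerivAt_pow 2 _).const_mul (e ^ 2 * (-160 + 230 * e + 20 * e ^ 2)))
        exact h.congr_deriv (by push_cast; ring)
      refine ((hT.const_mul 2).mul (h.comp r (hT.pow 2))).congr_deriv ?_
      simp only [dQ, wQ, Function.comp_apply, Pi.pow_apply]
      push_cast
      ring
    have hinv : HasDerivAt (fun z => s ^ 2 / (z ^ 2 + η ^ 2))
        (-(2 * r * s ^ 2) / (r ^ 2 + η ^ 2) ^ 2) r :=
      ((hasDerivAt_const r (s ^ 2)).div ((hasDerivAt_pow 2 r).add_const (η ^ 2)) hR).congr_deriv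
        (by push_cast; ring)
    have hF : HasDerivAt (fun z => (2 * Real.tanh (z / 2) * wP e (Real.tanh (z / 2) ^ 2)
          + s ^ 2 / (z ^ 2 + η ^ 2) * (2 * Real.tanh (z / 2) * wQ e (Real.tanh (z / 2) ^ 2)))
        / z / den e) _ r :=
      ((hP.add (hinv.mul hQ)).div (hasDerivAt_id r) hr.ne').div_const (den e)
    refine (hF.congr_deriv ?_).congr_of_eventuallyEq ?_
    · simp only [Pi.add_apply, Pi.mul_apply, id_eq]
      rcases eq_or_ne (den e) 0 with h | h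
      · simp [h]
      · field_simp
        ring
    · filter_upwards [lt_mem_nhds hr] with z hz
      rw [hval z hz s, div_div, ← he]
      ring
  · have h1 : HasDerivAt (fun t => weight τ θ η (r ^ 2 / 2, t))
        (Dir.wb (weight τ θ η) (r ^ 2 / 2, s)) s :=
      hd.comp_hasDerivAt_of_eq s ((hasDerivAt_const s (r ^ 2 / 2)).prodMk (hasDerivAt_id s)) rfl
    refine h1.unique ?_
    simp only [hval r hr]
    refine ((((((hasDerivAt_pow 2 s).div_const (r ^ 2 + η ^ 2)).mul_const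
      (wQ (τ ^ 2) (Real.tanh (r / 2) ^ 2))).const_add (wP (τ ^ 2) (Real.tanh (r / 2) ^ 2))).const_mul
        (2 * Real.tanh (r / 2))).div_const (r * den (τ ^ 2))).congr_deriv ?_
    push_cast
    ring

end Vale.Agent.P219.CH.GenK.Four
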